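import Vale.Agent.P271.H989.Choice
import Vale.Agent.P271.Sch.Hub

/-!
# P271 [NP]: the cotangent space at a regular point
-/

namespace Vale.Agent.P271.H989

variable {R : Type*} [CommRing R] [Algebra ℂ R]

theorem ker_isMaximal (φ : R →ₐ[ℂ] ℂ) : (RingHom.ker φ).IsMaximal := by
  refine RingHom.ker_isMaximal_of_surjective φ ?_
  intro c
  exact ⟨algebraMap ℂ R c, by simp⟩

theorem dl_smul_of_ker (φ : R →ₐ[ℂ] ℂ) (c : R) {f : R} (hf : φ f = 0) :
    dl φ (c * f) = φ c • dl φ f := by
  rw [dl_mul, hf, zero_smul, add_zero]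

theorem dl_one (φ : R →ₐ[ℂ] ℂ) : dl φ 1 = 0 := by
  rw [dl_apply]; simp

theorem dl_algebraMap (φ : R →ₐ[ℂ] ℂ) (c : ℂ) : dl φ (algebraMap ℂ R c) = 0 := by
  rw [dl_apply]; simp

/-- If `m R_m` is generated by `m` elements then the differentials span a space of dimension
at most `m`. -/
theorem exists_span_dl (φ : R →ₐ[ℂ] ℂ) [hp : (RingHom.ker φ).IsPrime] {m : ℕ}
    (hm : (IsLocalRing.maximalIdeal (Localization.AtPrime (RingHom.ker φ))).spanFinrank ≤ m)
    (hfg : (IsLocalRing.maximalIdeal (Localization.AtPrime (RingHom.ker φ))).FG) :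
    FiniteDimensional ℂ (LinearMap.range (dl φ)) ∧
      Module.finrank ℂ (LinearMap.range (dl φ)) ≤ m := by
  classical
  obtain ⟨s, hs, hspan⟩ := Submodule.FG.exists_span_finset_card_eq_spanFinrank hfg
  -- numerators
  have hnum : ∀ y : Localization.AtPrime (RingHom.ker φ), ∃ a : R,
      y ∈ IsLocalRing.maximalIdeal (Localization.AtPrime (RingHom.ker φ)) →
      φ a = 0 ∧ ∃ c : Localization.AtPrime (RingHom.ker φ), y = c * algebraMap R _ a := by
    intro y
    obtain ⟨⟨a, b⟩, hab⟩ := IsLocalization.surj (RingHom.ker φ).primeCompl y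
    refine ⟨a, fun hy => ?_⟩
    have hb : IsUnit (algebraMap R (Localization.AtPrime (RingHom.ker φ)) b) :=
      IsLocalization.map_units _ b
    obtain ⟨u, hu⟩ := hb
    constructor
    · have h1 : algebraMap R (Localization.AtPrime (RingHom.ker φ)) a ∈
          IsLocalRing.maximalIdeal (Localization.AtPrime (RingHom.ker φ)) := by
        rw [← hab]
        exact Ideal.mul_mem_right _ _ hy
      exact (IsLocalization.AtPrime.to_map_mem_maximal_iff (Localization.AtPrime (RingHom.ker φ))
        (RingHom.ker φ) a).1 h1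
    · refine ⟨(u⁻¹ : (Localization.AtPrime (RingHom.ker φ))ˣ), ?_⟩
      simp only at hab
      rw [← hab, ← hu, mul_comm y, ← mul_assoc, Units.inv_mul, one_mul]
  choose a ha using hnum
  have hle : LinearMap.range (dl φ) ≤ Submodule.span ℂ ((s.image fun y => dl φ (a y) : Finset _) : Set (R ⧸ (RingHom.ker φ) ^ 2)) := by
    rintro _ ⟨f0, rfl⟩
    have h0 : dl φ f0 = dl φ (f0 - algebraMap ℂ R (φ f0)) := by
      rw [map_sub, dl_algebraMap, sub_zero]
    rw [h0]
    generalize hf : f0 - algebraMap ℂ R (φ f0) = f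
    have hfφ : φ f = 0 := by rw [← hf]; simp
    have hfm : algebraMap R (Localization.AtPrime (RingHom.ker φ)) f ∈
        IsLocalRing.maximalIdeal (Localization.AtPrime (RingHom.ker φ)) := by
      rw [IsLocalization.AtPrime.to_map_mem_maximal_iff (Localization.AtPrime (RingHom.ker φ))
        (RingHom.ker φ)]
      exact hfφ
    rw [← hspan] at hfm
    obtain ⟨c, hc⟩ := Submodule.mem_span_finset.1 hfm
    obtain ⟨-, hc⟩ := hc
    have hsm : ∀ y ∈ s, y ∈ IsLocalRing.maximalIdeal (Localization.AtPrime (RingHom.ker φ)) := by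
      intro y hy
      rw [← hspan]
      exact Submodule.subset_span hy
    choose! d hd using fun y hy => (ha y (hsm y hy)).2
    have hc2 : algebraMap R (Localization.AtPrime (RingHom.ker φ)) f
        = ∑ y ∈ s, (c y * d y) * algebraMap R _ (a y) := by
      rw [← hc]
      refine Finset.sum_congr rfl fun y hy => ?_
      rw [smul_eq_mul, mul_assoc, ← hd y hy]
    obtain ⟨b, hb⟩ := IsLocalization.exist_integer_multiples_of_finset (RingHom.ker φ).primeCompl
      (s.image fun y => c y * d y)
    have hb2 : ∀ y ∈ s, ∃ r : R, algebraMap R (Localization.AtPrime (RingHom.ker φ)) r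
        = algebraMap R _ (b : R) * (c y * d y) := by
      intro y hy
      obtain ⟨r, hr⟩ := hb (c y * d y) (Finset.mem_image_of_mem _ hy)
      exact ⟨r, by rw [hr, Algebra.smul_def]⟩
    choose! r hr using hb2
    have h3 : algebraMap R (Localization.AtPrime (RingHom.ker φ)) ((b : R) * f)
        = algebraMap R (Localization.AtPrime (RingHom.ker φ)) (∑ y ∈ s, r y * a y) := by
      rw [map_mul, hc2, map_sum, Finset.mul_sum]
      refine Finset.sum_congr rfl fun y hy => ?_
      rw [map_mul, hr y hy]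
      ring
    obtain ⟨t, ht⟩ := (IsLocalization.eq_iff_exists (RingHom.ker φ).primeCompl _).1 h3
    have hbφ : φ (b : R) ≠ 0 := b.2
    have htφ : φ (t : R) ≠ 0 := t.2
    have h4 := congrArg (dl φ) ht
    rw [dl_smul_of_ker φ _ (by rw [map_mul, hfφ, mul_zero]), dl_smul_of_ker φ _ hfφ,
      dl_smul_of_ker φ _ (by
        rw [map_sum]
        refine Finset.sum_eq_zero fun y hy => ?_
        rw [map_mul, (ha y (hsm y hy)).1, mul_zero])] at h4
    have h5 : φ (b : R) • dl φ f = ∑ y ∈ s, φ (r y) • dl φ (a y) := by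
      have h6 := congrArg (fun x => (φ (t : R))⁻¹ • x) h4
      simp only [inv_smul_smul₀ htφ] at h6
      rw [h6, map_sum]
      refine Finset.sum_congr rfl fun y hy => ?_
      rw [dl_smul_of_ker φ _ (ha y (hsm y hy)).1]
    have h7 : dl φ f = (φ (b : R))⁻¹ • ∑ y ∈ s, φ (r y) • dl φ (a y) := by
      rw [← h5, inv_smul_smul₀ hbφ]
    rw [h7]
    refine Submodule.smul_mem _ _ (sum_mem fun y hy => Submodule.smul_mem _ _ (Submodule.subset_span ?_))
    exact Finset.mem_coe.2 (Finset.mem_image_of_mem _ hy)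
  have hfd : FiniteDimensional ℂ (Submodule.span ℂ ((s.image fun y => dl φ (a y) : Finset _) : Set (R ⧸ (RingHom.ker φ) ^ 2))) :=
    FiniteDimensional.span_finset ℂ _
  refine ⟨Submodule.finiteDimensional_of_le hle, ?_⟩
  refine (Submodule.finrank_mono hle).trans ((finrank_span_finset_le_card _).trans ?_)
  exact Finset.card_image_le.trans (hs.le.trans hm)

end Vale.Agent.P271.H989
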