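import Vale.Agent.P271.H989.Noether
import Vale.Agent.P271.H989.Cot

/-!
# P271 [NP1]: graded Noether normalisation of a `GCone`, étale at a given point
-/

namespace Vale.Agent.P271.H989

open MvPolynomial Vale.Agent.P271.Sch

section

variable {R : Type*} [CommRing R] [Algebra ℂ R] {A : ℕ → Submodule ℂ R} [GradedAlgebra A]

theorem Gens.mem_span_of_pos {r : ℕ} (G : Gens A r) {k : ℕ} (hk : 0 < k) {s : R} (hs : s ∈ A k) :
    s ∈ Ideal.span (Set.range G.x) := by
  classical
  have h1 : ∀ f : R, ∃ c : ℂ, ∃ u ∈ Ideal.span (Set.range G.x), f = u + algebraMap ℂ R c := by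
    intro f
    have hf : f ∈ Algebra.adjoin ℂ (Set.range G.x) := by rw [G.gen]; trivial
    induction hf using Algebra.adjoin_induction with
    | mem x hx => exact ⟨0, x, Ideal.subset_span hx, by simp⟩
    | algebraMap c => exact ⟨c, 0, zero_mem _, by simp⟩
    | add x y _ _ hx hy =>
      obtain ⟨c, u, hu, rfl⟩ := hx
      obtain ⟨d, v, hv, rfl⟩ := hy
      exact ⟨c + d, u + v, add_mem hu hv, by rw [map_add]; ring⟩
    | mul x y _ _ hx hy =>
      obtain ⟨c, u, hu, rfl⟩ := hx
      obtain ⟨d, v, hv, rfl⟩ := hy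
      refine ⟨c * d, u * (v + algebraMap ℂ R d) + algebraMap ℂ R c * v,
        add_mem (Ideal.mul_mem_right _ _ hu) (Ideal.mul_mem_left _ _ hv), ?_⟩
      rw [map_mul]; ring
  obtain ⟨c, u, hu, hsu⟩ := h1 s
  have h2 : (DirectSum.decompose A u 0 : R) = 0 := by
    rw [Ideal.span, Submodule.mem_span_range_iff_exists_fun] at hu
    obtain ⟨b, rfl⟩ := hu
    rw [DirectSum.decompose_sum, DFinsupp.finsetSum_apply]
    simp only [AddSubmonoidClass.coe_finsetSum]
    refine Finset.sum_eq_zero fun i _ => ?_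
    rw [smul_eq_mul, mul_comm]
    exact DirectSum.coe_decompose_mul_of_left_mem_of_not_le A (G.mem i) (by have := G.pos i; omega)
  have h3 : (DirectSum.decompose A (algebraMap ℂ R c) 0 : R) = algebraMap ℂ R c := by
    refine DirectSum.decompose_of_mem_same A ?_
    rw [Algebra.algebraMap_eq_smul_one]
    exact Submodule.smul_mem _ _ SetLike.GradedOne.one_mem
  have h4 : (DirectSum.decompose A s 0 : R) = 0 := DirectSum.decompose_of_mem_ne A hs hk.ne'
  have h5 : (DirectSum.decompose A s 0 : R) = algebraMap ℂ R c := by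
    rw [hsu, DirectSum.decompose_add, DirectSum.add_apply]
    push_cast
    rw [h2, h3, zero_add]
  rw [h4] at h5
  rw [hsu, ← h5, add_zero]
  exact hu

theorem Gens.rel_of_pos {r : ℕ} (G : Gens A r) {Q : Ideal R} {k : ℕ} (hk : 0 < k) {s : R}
    (hs : s ∈ A k) (hsQ : s ∉ Q) : Rel G Q := by
  by_contra h
  unfold Rel at h
  push Not at h
  have hle : Ideal.span (Set.range G.x) ≤ Q := ?_
  · exact hsQ (hle (G.mem_span_of_pos hk hs))
  rw [Ideal.span_le]
  rintro _ ⟨i, rfl⟩
  exact h i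

end

/-- Graded Noether normalisation, étale at `φ`. -/
theorem exists_noether {n : ℕ} (C : GCone n) (φ : C.Pt) (hφ : GCone.NV φ) :
    ∃ N0 : ℕ, 0 < N0 ∧ ∀ N : ℕ, 0 < N → N0 ∣ N → ∃ z : Fin (n + 1) → C.R,
      (∀ i, z i ∈ C.A N) ∧ (∀ i, φ (z i) ≠ 0) ∧
      (MvPolynomial.aeval z : MvPolynomial (Fin (n + 1)) ℂ →ₐ[ℂ] C.R).toRingHom.Finite ∧
      Function.Injective (MvPolynomial.aeval z : MvPolynomial (Fin (n + 1)) ℂ →ₐ[ℂ] C.R) ∧
      LinearMap.range (dl φ) ≤ Submodule.span ℂ (Set.range fun i => dl φ (z i)) := by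
  classical
  obtain ⟨r, ⟨G⟩⟩ := exists_gens C.A C.finiteType C.zero
  have hmax : (RingHom.ker φ).IsMaximal := ker_isMaximal φ
  have hnv : ∃ k > 0, ∃ s ∈ C.A k, s ∉ RingHom.ker φ := hφ
  obtain ⟨hreg, hdimφ⟩ := C.regular (RingHom.ker φ) hnv
  obtain ⟨k, s, hs, s', hs', hs0, hs0'⟩ := C.free (RingHom.ker φ) hnv
  have hrelφ : Rel G (RingHom.ker φ) := by
    obtain ⟨k, hk, s, hs, hs0⟩ := hnv
    exact G.rel_of_pos hk hs hs0
  have hnoeth : IsNoetherianRing C.R := by
    have := C.finiteType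
    exact Algebra.FiniteType.isNoetherianRing ℂ C.R
  refine ⟨(∏ i, G.w i) * (k * k + k * (k + 1) + ∑ i, (G.w i + k * k) + 1),
    Nat.mul_pos (Finset.prod_pos fun i _ => G.pos i) (Nat.succ_pos _), fun N hN hdvdN => ?_⟩
  have hprod : 0 < ∏ i, G.w i := Finset.prod_pos fun i _ => G.pos i
  have hNle : k * k + k * (k + 1) + ∑ i, (G.w i + k * k) + 1 ≤ N :=
    (Nat.le_mul_of_pos_left _ hprod).trans (Nat.le_of_dvd hN hdvdN)
  have hdvd : ∀ i, G.w i ∣ N := fun i =>
    ((Finset.dvd_prod_of_mem G.w (Finset.mem_univ i)).mul_right _).trans hdvdN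
  have hNw : ∀ i, G.w i + k * k ≤ N := by
    intro i
    have := Finset.single_le_sum (f := fun i => G.w i + k * k) (fun i _ => Nat.zero_le _)
      (Finset.mem_univ i)
    omega
  have hsp := span_dl G φ hs hs' hs0 hs0' hN (by omega) hNw
  have hA : ∃ a ∈ C.A N, φ a ≠ 0 := exists_mem_notMem G hdvd hrelφ
  obtain ⟨z, hz, hzφ, hht, hli⟩ := exists_params G hdvd φ hsp hA (n + 1)
  have hdim : ∀ p : Ideal C.R, p.IsMaximal → Rel G p → p.height ≤ (n + 1 : ℕ) := by
    intro p hp hrel
    obtain ⟨i, hi⟩ := hrel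
    obtain ⟨-, h2⟩ := C.regular p ⟨G.w i, G.pos i, G.x i, G.mem i, hi⟩
    rw [IsLocalization.AtPrime.ringKrullDim_eq_height p] at h2
    exact le_of_eq (by exact_mod_cast h2)
  have hfin := finite_of_pow_mem G hN z hz
    (pow_mem_of_params G hdim (d := fun _ => N) hz hht)
  refine ⟨z, hz, hzφ, hfin, ?_, ?_⟩
  · refine injective_of_height _ hfin (RingHom.ker φ) hmax.isPrime ?_
    rw [IsLocalization.AtPrime.ringKrullDim_eq_height (RingHom.ker φ)] at hdimφ
    exact le_of_eq (by exact_mod_cast hdimφ.symm)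
  · rcases hli with h | h
    · exact h
    · have hsf : (IsLocalRing.maximalIdeal (Localization.AtPrime (RingHom.ker φ))).spanFinrank
          ≤ n + 1 := by
        have h1 := hreg.spanFinrank_maximalIdeal
        rw [hdimφ] at h1
        exact le_of_eq (by exact_mod_cast h1)
      have hN' : IsNoetherianRing (Localization.AtPrime (RingHom.ker φ)) := inferInstance
      obtain ⟨hfd, hrank⟩ := exists_span_dl φ hsf (IsNoetherian.noetherian _)
      have hle : Submodule.span ℂ (Set.range fun i => dl φ (z i)) ≤ LinearMap.range (dl φ) := by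
        rw [Submodule.span_le]
        rintro _ ⟨i, rfl⟩
        exact ⟨z i, rfl⟩
      refine (Submodule.eq_of_le_of_finrank_le hle ?_).ge
      rw [finrank_span_eq_card h, Fintype.card_fin]
      exact hrank

end Vale.Agent.P271.H989
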