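import Mathlib

/-!
# P271 [NP]: homogeneous generators of positive degree; finiteness over homogeneous parameters
-/

namespace Vale.Agent.P271.H989

open MvPolynomial

variable {R : Type*} [CommRing R] [Algebra ℂ R] (A : ℕ → Submodule ℂ R) [GradedAlgebra A]

/-- Homogeneous generators of positive degree. -/
structure Gens (r : ℕ) where
  x : Fin r → R
  w : Fin r → ℕ
  pos : ∀ i, 0 < w i
  mem : ∀ i, x i ∈ A (w i)
  gen : Algebra.adjoin ℂ (Set.range x) = ⊤

theorem exists_gens (hft : Algebra.FiniteType ℂ R)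
    (hzero : ∀ a ∈ A 0, ∃ c : ℂ, algebraMap ℂ R c = a) : ∃ r : ℕ, Nonempty (Gens A r) := by
  classical
  obtain ⟨F, hF⟩ := hft.out
  let ι₀ := Σ (f : F), (DirectSum.decompose A f.1).support
  let y : ι₀ → R := fun i => ((DirectSum.decompose A i.1.1) i.2.1 : R)
  let J := {i : ι₀ // i.2.1 ≠ 0}
  have : Fintype J := inferInstance
  let e := (Fintype.equivFin J).symm
  refine ⟨Fintype.card J, ⟨⟨fun i => y (e i).1, fun i => (e i).1.2.1, fun i => Nat.pos_of_ne_zero (e i).2,
    fun i => (DirectSum.decompose A (e i).1.1.1 (e i).1.2.1).2, ?_⟩⟩⟩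
  rw [← top_le_iff, ← hF, Algebra.adjoin_le_iff]
  intro s hs
  rw [← DirectSum.sum_support_decompose A s]
  refine sum_mem fun n hn => ?_
  by_cases h0 : n = 0
  · subst h0
    obtain ⟨c, hc⟩ := hzero _ (DirectSum.decompose A s 0).2
    rw [← hc]
    exact Subalgebra.algebraMap_mem _ c
  · refine Algebra.subset_adjoin ⟨e.symm ⟨⟨⟨s, hs⟩, ⟨n, hn⟩⟩, h0⟩, ?_⟩
    simp [y]

end Vale.Agent.P271.H989
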