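import Vale.Agent.P271.H989.Cot

/-!
# P271 [NP]: if `z` is étale at `φ` then the partial derivatives `∂/∂z_j` are regular at `φ`
-/

namespace Vale.Agent.P271.H989

open KaehlerDifferential

variable {R : Type*} [CommRing R] [Algebra ℂ R]

theorem D_mem_smul (p : Ideal R) {g : R} (hg : g ∈ p ^ 2) :
    D ℂ R g ∈ p • (⊤ : Submodule R (Ω[R⁄ℂ])) := by
  rw [pow_two] at hg
  induction hg using Submodule.mul_induction_on' with
  | mem_mul_mem a ha b hb =>
    rw [Derivation.leibniz]
    exact add_mem (Submodule.smul_mem_smul ha trivial) (Submodule.smul_mem_smul hb trivial)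
  | add a _ b _ ha hb => rw [map_add]; exact add_mem ha hb

/-- If the differentials of `z` span the cotangent space at `φ`, then `r • df` is a combination of
the `dz_i`, for some `r` with `φ r ≠ 0`. -/
theorem exists_smul_D [Algebra.FiniteType ℂ R] (φ : R →ₐ[ℂ] ℂ) {m : ℕ} (z : Fin m → R)
    (hz : LinearMap.range (dl φ) ≤ Submodule.span ℂ (Set.range fun i => dl φ (z i))) :
    ∃ r : R, φ r = 1 ∧ ∀ f : R, ∃ b : Fin m → R, r • D ℂ R f = ∑ i, b i • D ℂ R (z i) := by
  classical
  let p := RingHom.ker φ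
  let N : Submodule R (Ω[R⁄ℂ]) := Submodule.span R (Set.range fun i => D ℂ R (z i))
  have hle : (⊤ : Submodule R (Ω[R⁄ℂ])) ≤ N ⊔ p • (⊤ : Submodule R (Ω[R⁄ℂ])) := by
    refine (KaehlerDifferential.span_range_derivation ℂ R).ge.trans ?_
    rw [Submodule.span_le]
    rintro _ ⟨f, rfl⟩
    have h1 := hz ⟨f, rfl⟩
    rw [Submodule.mem_span_range_iff_exists_fun] at h1
    obtain ⟨c, hc⟩ := h1
    have h2 : f - algebraMap ℂ R (φ f) - ∑ i, c i • (z i - algebraMap ℂ R (φ (z i))) ∈ p ^ 2 := by
      rw [← Ideal.Quotient.eq_zero_iff_mem, map_sub, map_sum]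
      have h3 : ∀ (c : ℂ) (y : R), Ideal.Quotient.mk (p ^ 2) (c • y)
          = c • Ideal.Quotient.mk (p ^ 2) y := by
        intro c y
        rw [Algebra.smul_def, Algebra.smul_def, map_mul]
        rfl
      simp only [h3]
      rw [← dl_apply, ← hc, sub_eq_zero]
      rfl
    have h4 := D_mem_smul p h2
    have h5 : D ℂ R (f - algebraMap ℂ R (φ f) - ∑ i, c i • (z i - algebraMap ℂ R (φ (z i)))) =
        D ℂ R f - ∑ i, c i • D ℂ R (z i) := by
      simp only [map_sub, map_sum, Derivation.map_algebraMap, sub_zero, Derivation.map_smul]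
    rw [h5] at h4
    have h6 : D ℂ R f = ∑ i, c i • D ℂ R (z i) + (D ℂ R f - ∑ i, c i • D ℂ R (z i)) := by abel
    rw [SetLike.mem_coe, h6]
    refine Submodule.add_mem_sup (sum_mem fun i _ => ?_) h4
    rw [← algebraMap_smul R (c i)]
    exact Submodule.smul_mem _ _ (Submodule.subset_span ⟨i, rfl⟩)
  obtain ⟨r, hr, hrN⟩ := Submodule.exists_sub_one_mem_and_smul_le_of_fg_of_le_sup
    (I := p) (N := N) (N' := (⊤ : Submodule R (Ω[R⁄ℂ]))) (P := ⊤) Module.Finite.fg_top le_top hle
  refine ⟨r, ?_, fun f => ?_⟩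
  · have : φ (r - 1) = 0 := hr
    rw [map_sub, map_one, sub_eq_zero] at this
    exact this
  · have h1 : r • D ℂ R f ∈ N := hrN (Submodule.smul_mem_pointwise_smul _ _ _ trivial)
    rw [Submodule.mem_span_range_iff_exists_fun] at h1
    obtain ⟨b, hb⟩ := h1
    exact ⟨b, hb.symm⟩

/-- The dual derivations are regular at `φ`. -/
theorem regular_partials [Algebra.FiniteType ℂ R] {K : Type*} [Field K] [Algebra R K]
    [Algebra ℂ K] [IsScalarTower ℂ R K] (φ : R →ₐ[ℂ] ℂ) {m : ℕ} (z : Fin m → R)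
    (hz : LinearMap.range (dl φ) ≤ Submodule.span ℂ (Set.range fun i => dl φ (z i))) :
    ∃ r : R, φ r = 1 ∧ ∀ d : Fin m → Derivation ℂ K K,
      (∀ i j, d i (algebraMap R K (z j)) = if i = j then 1 else 0) →
      ∀ (k : Fin m) (f : R), ∃ b : R, algebraMap R K r * d k (algebraMap R K f) = algebraMap R K b := by
  classical
  obtain ⟨r, hr, hrD⟩ := exists_smul_D φ z hz
  refine ⟨r, hr, fun d hd k f => ?_⟩
  obtain ⟨b, hb⟩ := hrD f
  let e : Derivation ℂ R K :=
    Derivation.mk' ((d k : K →ₗ[ℂ] K).comp (Algebra.linearMap R K |>.restrictScalars ℂ)) (by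
      intro a b
      simp only [LinearMap.comp_apply, LinearMap.restrictScalars_apply, Algebra.linearMap_apply,
        map_mul, Derivation.coeFn_coe, Derivation.leibniz, Algebra.smul_def]
      rfl)
  have he : ∀ f : R, e f = d k (algebraMap R K f) := fun f => rfl
  have h1 := congrArg e.liftKaehlerDifferential hb
  rw [map_smul, map_sum, Derivation.liftKaehlerDifferential_comp_D, he] at h1
  simp only [map_smul, Derivation.liftKaehlerDifferential_comp_D, he, hd] at h1
  refine ⟨b k, ?_⟩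
  rw [← Algebra.smul_def, h1]
  rw [Finset.sum_eq_single k]
  · rw [if_pos rfl, Algebra.smul_def, mul_one]
  · intro j _ hj
    rw [if_neg (fun h => hj h.symm), smul_zero]
  · intro h; exact absurd (Finset.mem_univ k) h

end Vale.Agent.P271.H989
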