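import Vale.Agent.P271.H989.Main
import Vale.Agent.P271.H989.Der
import Vale.Agent.P271.H741.CoreDefs

/-!
# P271 [NP]: the structure `Np`
-/

namespace Vale.Agent.P271.H989

open Vale.Agent.P282.L2 Vale.Agent.P271.H741 Vale.Agent.P271.Sch

/-- The dual derivations of an étale system are regular. -/
theorem regDer_of_partials {n : ℕ} {C : GCone n} {φ : C.Pt} {m : ℕ} (z : Fin m → C.R)
    (hz : LinearMap.range (dl φ) ≤ Submodule.span ℂ (Set.range fun i => dl φ (z i)))
    (d : Fin m → Derivation ℂ C.K C.K)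
    (hd : ∀ i j, d i (algebraMap C.R C.K (z j)) = if i = j then 1 else 0) (k : Fin m) :
    GCone.RegDer φ (d k) := by
  have := C.finiteType
  obtain ⟨r, hr, hrd⟩ := regular_partials (K := C.K) φ z hz
  rintro f ⟨a, b, hb, hab⟩
  obtain ⟨a', ha'⟩ := hrd d hd k a
  obtain ⟨b', hb'⟩ := hrd d hd k b
  refine ⟨b * a' - a * b', r * b ^ 2, ?_, ?_⟩
  · rw [map_mul, map_pow, hr, one_mul]
    exact pow_ne_zero _ hb
  · have hb0 : algebraMap C.R C.K b ≠ 0 := by
      intro h
      rw [map_eq_zero_iff _ (IsFractionRing.injective C.R C.K)] at h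
      exact hb (by rw [h, map_zero])
    have h1 : d k (algebraMap C.R C.K a) = f * d k (algebraMap C.R C.K b)
        + algebraMap C.R C.K b * d k f := by
      rw [← hab, Derivation.leibniz, smul_eq_mul, smul_eq_mul]
    rw [map_sub, map_mul, map_mul, map_mul, map_pow, ← ha', ← hb', h1, ← hab]
    ring

theorem jac_of_partials {n : ℕ} {C : GCone n} (z : Fin (n + 1) → C.R)
    (d : Fin (n + 1) → Derivation ℂ C.K C.K)
    (hd : ∀ i j, d i (algebraMap C.R C.K (z j)) = if i = j then 1 else 0) :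
    GCone.jac z d = 1 := by
  have : (Matrix.of fun i j => d i (algebraMap C.R C.K (z j))) = 1 := by
    ext i j
    rw [Matrix.of_apply, hd, Matrix.one_apply]
  rw [GCone.jac, this, Matrix.det_one]

/-- **The data at a point**, with `h` divisible by a given homogeneous element. -/
theorem exists_np_dvd {n : ℕ} (C : GCone n) (φ : C.Pt) (hφ : GCone.NV φ) {g0 : C.R} {k0 : ℕ}
    (hg0 : g0 ∈ C.A k0) (hg0' : g0 ≠ 0) (M : ℕ) (hM : 0 < M) :
    ∃ (_ : Algebra (Pol (n + 1)) C.K) (_ : IsScalarTower ℂ (Pol (n + 1)) C.K)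
      (_ : FaithfulSMul (Pol (n + 1)) C.K) (_ : Algebra (FractionRing (Pol (n + 1))) C.K)
      (_ : IsScalarTower (Pol (n + 1)) (FractionRing (Pol (n + 1))) C.K)
      (_ : FiniteDimensional (FractionRing (Pol (n + 1))) C.K) (V : Cov C) (_ : Tube V φ)
      (d : Fin (n + 1) → Derivation ℂ C.K C.K),
      M ∣ V.N ∧ (∃ j, V.e = 1 + V.N * j) ∧ (∀ i, φ (V.z i) ≠ 0) ∧ φ V.θ ≠ 0 ∧
      (∃ b, V.h' = g0 * b) ∧
      (MvPolynomial.aeval V.z : Pol (n + 1) →ₐ[ℂ] C.R).toRingHom.Finite ∧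
      Function.Injective (MvPolynomial.aeval V.z : Pol (n + 1) →ₐ[ℂ] C.R) ∧
      LinearMap.range (dl φ) ≤ Submodule.span ℂ (Set.range fun i => dl φ (V.z i)) ∧
      IsPartials d ∧ (∀ k, GCone.RegDer φ (d k)) ∧ GCone.jac V.z d = 1 := by
  classical
  obtain ⟨r, ⟨G⟩⟩ := exists_gens C.A C.finiteType C.zero
  have hmax : (RingHom.ker φ).IsMaximal := ker_isMaximal φ
  have hnv : ∃ k > 0, ∃ s ∈ C.A k, s ∉ RingHom.ker φ := hφ
  obtain ⟨k, s, hs, s', hs', hs0, hs0'⟩ := C.free (RingHom.ker φ) hnv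
  have hs0R : s ≠ 0 := by rintro rfl; exact hs0 (map_zero φ)
  have hs0R' : s' ≠ 0 := by rintro rfl; exact hs0' (map_zero φ)
  have hmem : g0 * (s * s') ∈ C.A (k0 + (k + (k + 1))) :=
    SetLike.mul_mem_graded hg0 (SetLike.mul_mem_graded hs hs')
  obtain ⟨i1, i2, i3, i4, i5, i6, V, hMV, he, hzφ, hθφ, ⟨b, hb⟩, hfin, hinj, hsp⟩ :=
    exists_cov C φ hφ hmem (mul_ne_zero hg0' (mul_ne_zero hs0R hs0R')) M hM
  have hinjRK : Function.Injective (algebraMap C.R C.K) := IsFractionRing.injective C.R C.K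
  have hreg : ∀ x y : C.R, x ≠ 0 → V.h' = x * y → V.E.IsReg (algebraMap C.R C.K x)⁻¹ := by
    intro x y hx hxy
    obtain ⟨f, l, hf⟩ := V.isReg y
    refine ⟨f, l + 1, ?_⟩
    have hx0 : algebraMap C.R C.K x ≠ 0 := by rwa [Ne, map_eq_zero_iff _ hinjRK]
    rw [← hf, pow_succ]
    conv_lhs => rw [mul_assoc, V.hh, hxy, map_mul]
    field_simp
    rw [V.hh, hxy, map_mul]
  let T : Tube V φ :=
    { r := r + 2
      x := Fin.append G.x ![s, s']
      w := Fin.append G.w ![k, k + 1]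
      x_mem := by
        intro j
        refine Fin.addCases (fun i => ?_) (fun i => ?_) j
        · rw [Fin.append_left, Fin.append_left]; exact G.mem i
        · rw [Fin.append_right, Fin.append_right]
          fin_cases i
          · exact hs
          · exact hs'
      gen := by
        rw [← top_le_iff, ← G.gen]
        refine Algebra.adjoin_mono ?_
        rintro _ ⟨i, rfl⟩
        exact ⟨Fin.castAdd 2 i, by rw [Fin.append_left]⟩
      i0 := Fin.natAdd r 0
      i1 := Fin.natAdd r 1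
      hw := by rw [Fin.append_right, Fin.append_right]; rfl
      ne0 := by rw [Fin.append_right]; exact hs0
      ne1 := by rw [Fin.append_right]; exact hs0'
      reg0 := by
        rw [Fin.append_right]
        exact hreg s (g0 * s' * b) hs0R (by rw [hb]; ring)
      reg1 := by
        rw [Fin.append_right]
        exact hreg s' (g0 * s * b) hs0R' (by rw [hb]; ring) }
  obtain ⟨d, hd⟩ := exists_partials_of_prim V.E
  have hd' : ∀ i j, d i (algebraMap C.R C.K (V.z j)) = if i = j then 1 else 0 := by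
    intro i j
    rw [← V.hz, hd]
  refine ⟨i1, i2, i3, i4, i5, i6, V, T, d, hMV, he, hzφ, hθφ, ⟨s * s' * b, ?_⟩, hfin, hinj, hsp, hd,
    fun k => regDer_of_partials V.z hsp d hd' k, jac_of_partials V.z d hd'⟩
  rw [hb]; ring

/-- **The data at a point.** -/
theorem exists_np {n : ℕ} (C : GCone n) (φ : C.Pt) (hφ : GCone.NV φ) : Nonempty (Np C φ) := by
  obtain ⟨i1, i2, i3, i4, i5, i6, V, T, d, -, -, -, -, -, -, -, -, -, hreg, hjac⟩ :=
    exists_np_dvd C φ hφ (g0 := 1) (k0 := 0) SetLike.GradedOne.one_mem one_ne_zero 1 one_pos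
  have hone : GCone.RegAt φ (1 : C.K) := ⟨1, 1, by simp, by simp⟩
  refine ⟨⟨i1, i2, i3, V, T, d, hreg, ?_, ?_, ?_⟩⟩
  · rw [hjac]; exact hone
  · rw [hjac]; exact one_ne_zero
  · rw [hjac, inv_one]; exact hone

end Vale.Agent.P271.H989
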