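import Vale.Agent.P271.H989.Fin

/-!
# P271 [NP]: homogeneous parameters, step by step
-/

namespace Vale.Agent.P271.H989

open MvPolynomial

variable {R : Type*} [CommRing R] [Algebra ℂ R]

/-- The differential at the point `φ`, with values in `R / m²`. -/
noncomputable def dl (φ : R →ₐ[ℂ] ℂ) : R →ₗ[ℂ] (R ⧸ (RingHom.ker φ) ^ 2) :=
  ((Ideal.Quotient.mkₐ ℂ ((RingHom.ker φ) ^ 2)).toLinearMap).comp
    (LinearMap.id - (Algebra.linearMap ℂ R).comp φ.toLinearMap)

theorem dl_apply (φ : R →ₐ[ℂ] ℂ) (f : R) :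
    dl φ f = Ideal.Quotient.mk ((RingHom.ker φ) ^ 2) (f - algebraMap ℂ R (φ f)) := rfl

theorem dl_mul (φ : R →ₐ[ℂ] ℂ) (f g : R) : dl φ (f * g) = φ f • dl φ g + φ g • dl φ f := by
  have h1 : ∀ (c : ℂ) (y : R), c • Ideal.Quotient.mk ((RingHom.ker φ) ^ 2) y
      = Ideal.Quotient.mk ((RingHom.ker φ) ^ 2) (algebraMap ℂ R c * y) := by
    intro c y
    rw [Algebra.smul_def, map_mul]
    rfl
  rw [dl_apply, dl_apply, dl_apply, h1, h1, ← map_add, Ideal.Quotient.eq]
  have h2 : (f * g - algebraMap ℂ R (φ (f * g))) - (algebraMap ℂ R (φ f) * (g - algebraMap ℂ R (φ g))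
      + algebraMap ℂ R (φ g) * (f - algebraMap ℂ R (φ f)))
      = (f - algebraMap ℂ R (φ f)) * (g - algebraMap ℂ R (φ g)) := by
    rw [map_mul, map_mul]; ring
  rw [h2, pow_two]
  refine Ideal.mul_mem_mul ?_ ?_ <;> simp [RingHom.mem_ker]

/-- A natural number `≥ k²` is a combination of `k` and `k + 1`. -/
theorem exists_rep (k M : ℕ) (h : k * k ≤ M) : ∃ a b : ℕ, a * k + b * (k + 1) = M := by
  rcases Nat.eq_zero_or_pos k with rfl | hk
  · exact ⟨0, M, by simp⟩
  · have h1 := Nat.div_add_mod M k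
    have h2 : M % k < k := Nat.mod_lt _ hk
    have h3 : k ≤ M / k := (Nat.le_div_iff_mul_le hk).2 h
    refine ⟨M / k - M % k, M % k, ?_⟩
    obtain ⟨c, hc⟩ := Nat.exists_eq_add_of_le (h2.le.trans h3)
    rw [hc, Nat.add_sub_cancel_left]
    rw [hc] at h1
    nlinarith

/-- Point derivations. -/
theorem der_pow (φ : R →ₐ[ℂ] ℂ) (ξ : R →ₗ[ℂ] ℂ) (hξ : ∀ f g, ξ (f * g) = φ f * ξ g + φ g * ξ f)
    (f : R) (a : ℕ) : φ f * ξ (f ^ a) = a * φ f ^ a * ξ f := by
  have h1 : ξ 1 = 0 := by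
    have := hξ 1 1
    simp at this
    exact this
  induction a with
  | zero => simp [h1]
  | succ a ih =>
    rw [pow_succ, hξ, map_pow]
    push_cast
    linear_combination (φ f) * ih

variable (A : ℕ → Submodule ℂ R) [GradedAlgebra A]

variable {A}

/-- A point derivation which kills `A N` is zero. -/
theorem der_eq_zero {r : ℕ} (G : Gens A r) (φ : R →ₐ[ℂ] ℂ) {k : ℕ} {s s' : R} (hs : s ∈ A k)
    (hs' : s' ∈ A (k + 1)) (hs0 : φ s ≠ 0) (hs0' : φ s' ≠ 0) {N : ℕ} (hN0 : 0 < N)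
    (hN : k * k + k * (k + 1) ≤ N) (hNw : ∀ i, G.w i + k * k ≤ N)
    (ξ : R →ₗ[ℂ] ℂ) (hξ : ∀ f g, ξ (f * g) = φ f * ξ g + φ g * ξ f) (h0 : ∀ f ∈ A N, ξ f = 0) :
    ξ = 0 := by
  have hmem : ∀ a b : ℕ, s ^ a * s' ^ b ∈ A (a * k + b * (k + 1)) := by
    intro a b
    have h1 := SetLike.pow_mem_graded (A := A) a hs
    have h2 := SetLike.pow_mem_graded (A := A) b hs'
    have := SetLike.mul_mem_graded h1 h2
    simpa only [smul_eq_mul] using this
  have hval : ∀ a b : ℕ, φ s * φ s' * ξ (s ^ a * s' ^ b)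
      = φ s ^ a * φ s' ^ b * (a * φ s' * ξ s + b * φ s * ξ s') := by
    intro a b
    have h1 := der_pow φ ξ hξ s a
    have h2 := der_pow φ ξ hξ s' b
    rw [hξ, map_pow φ, map_pow φ]
    linear_combination (φ s ^ a * φ s) * h2 + (φ s' ^ b * φ s') * h1
  obtain ⟨a, b, hab⟩ := exists_rep k (N - k * (k + 1)) (by omega)
  have hN1 : (a + (k + 1)) * k + b * (k + 1) = N := by
    have : (a + (k + 1)) * k + b * (k + 1) = (a * k + b * (k + 1)) + k * (k + 1) := by ring
    rw [this, hab]; omega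
  have hN2 : a * k + (b + k) * (k + 1) = N := by
    have : a * k + (b + k) * (k + 1) = (a * k + b * (k + 1)) + k * (k + 1) := by ring
    rw [this, hab]; omega
  have e1 : (((a + (k + 1) : ℕ) : ℂ)) * φ s' * ξ s + (b : ℂ) * φ s * ξ s' = 0 := by
    have h := hval (a + (k + 1)) b
    rw [h0 _ (hN1 ▸ hmem _ _), mul_zero] at h
    rcases mul_eq_zero.1 h.symm with h' | h'
    · exact absurd h' (mul_ne_zero (pow_ne_zero _ hs0) (pow_ne_zero _ hs0'))
    · exact h'
  have e2 : (a : ℂ) * φ s' * ξ s + (((b + k : ℕ) : ℂ)) * φ s * ξ s' = 0 := by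
    have h := hval a (b + k)
    rw [h0 _ (hN2 ▸ hmem _ _), mul_zero] at h
    rcases mul_eq_zero.1 h.symm with h' | h'
    · exact absurd h' (mul_ne_zero (pow_ne_zero _ hs0) (pow_ne_zero _ hs0'))
    · exact h'
  have hNC : (N : ℂ) ≠ 0 := Nat.cast_ne_zero.2 hN0.ne'
  have hdet : ((a : ℂ) + (k + 1)) * (b + k) - a * b = N := by
    rw [← hN2]; push_cast; ring
  have hξs : ξ s = 0 := by
    have : (N : ℂ) * φ s' * ξ s = 0 := by
      rw [← hdet]
      push_cast at e1 e2
      linear_combination (b + k : ℂ) * e1 - (b : ℂ) * e2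
    rcases mul_eq_zero.1 this with h | h
    · exact absurd h (mul_ne_zero hNC hs0')
    · exact h
  have hξs' : ξ s' = 0 := by
    have : (N : ℂ) * φ s * ξ s' = 0 := by
      rw [← hdet]
      push_cast at e1 e2
      linear_combination (a + (k + 1) : ℂ) * e2 - (a : ℂ) * e1
    rcases mul_eq_zero.1 this with h | h
    · exact absurd h (mul_ne_zero hNC hs0)
    · exact h
  have hx : ∀ i, ξ (G.x i) = 0 := by
    intro i
    obtain ⟨a, b, hab⟩ := exists_rep k (N - G.w i) (by have := hNw i; omega)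
    have h1 : ξ (G.x i * (s ^ a * s' ^ b)) = 0 := by
      refine h0 _ ?_
      have h := SetLike.mul_mem_graded (G.mem i) (hmem a b)
      rw [hab] at h
      have h3 : G.w i + (N - G.w i) = N := by have := hNw i; omega
      rwa [h3] at h
    have h2 := hval a b
    rw [hξs, hξs', mul_zero, mul_zero, add_zero, mul_zero] at h2
    have h3 : ξ (s ^ a * s' ^ b) = 0 := by
      rcases mul_eq_zero.1 h2 with h | h
      · exact absurd h (mul_ne_zero hs0 hs0')
      · exact h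
    rw [hξ, h3, mul_zero, zero_add] at h1
    rcases mul_eq_zero.1 h1 with h | h
    · rw [map_mul, map_pow, map_pow] at h
      exact absurd h (mul_ne_zero (pow_ne_zero _ hs0) (pow_ne_zero _ hs0'))
    · exact h
  have h1 : ξ 1 = 0 := by
    have := hξ 1 1
    simp at this
    exact this
  ext f
  have hf : f ∈ Algebra.adjoin ℂ (Set.range G.x) := by rw [G.gen]; trivial
  induction hf using Algebra.adjoin_induction with
  | mem x hx' => obtain ⟨i, rfl⟩ := hx'; exact hx i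
  | algebraMap c =>
    rw [Algebra.algebraMap_eq_smul_one, map_smul, h1]; simp
  | add x y _ _ hx hy => rw [map_add, hx, hy]; simp
  | mul x y _ _ hx hy =>
    simp only [LinearMap.zero_apply] at hx hy
    rw [hξ, hx, hy]; simp

/-- The differentials of the elements of `A N` span. -/
theorem span_dl {r : ℕ} (G : Gens A r) (φ : R →ₐ[ℂ] ℂ) {k : ℕ} {s s' : R} (hs : s ∈ A k)
    (hs' : s' ∈ A (k + 1)) (hs0 : φ s ≠ 0) (hs0' : φ s' ≠ 0) {N : ℕ} (hN0 : 0 < N)
    (hN : k * k + k * (k + 1) ≤ N) (hNw : ∀ i, G.w i + k * k ≤ N) :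
    LinearMap.range (dl φ) ≤ (A N).map (dl φ) := by
  rintro _ ⟨f, rfl⟩
  by_contra hf
  obtain ⟨ℓ, hℓ, hℓ0⟩ := Submodule.exists_le_ker_of_notMem hf
  have := der_eq_zero G φ hs hs' hs0 hs0' hN0 hN hNw (ℓ.comp (dl φ)) (by
    intro f g
    simp only [LinearMap.comp_apply, dl_mul, map_add, map_smul, smul_eq_mul]) (by
    intro g hg
    have := hℓ0 (Submodule.mem_map_of_mem (f := dl φ) hg)
    simpa using this)
  have h := LinearMap.congr_fun this f
  simp only [LinearMap.comp_apply, LinearMap.zero_apply] at h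
  exact hℓ h

end Vale.Agent.P271.H989
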