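import Vale.Agent.P271.H989.Gens

/-!
# P271 [NP]: finiteness over homogeneous parameters
-/

namespace Vale.Agent.P271.H989

open MvPolynomial

variable {R : Type*} [CommRing R] [Algebra ℂ R] (A : ℕ → Submodule ℂ R) [GradedAlgebra A]

variable {A}

theorem Gens.monomial_mem {r : ℕ} (G : Gens A r) (α : Fin r → ℕ) :
    (∏ k, G.x k ^ α k) ∈ A (∑ k, α k * G.w k) := by
  classical
  refine SetLike.prod_mem_graded A (fun k => α k * G.w k) (fun k => G.x k ^ α k) ?_
  intro k _
  have := SetLike.pow_mem_graded (α k) (G.mem k)
  rwa [smul_eq_mul] at this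

/-- Graded Nakayama lemma. -/
theorem finite_of_pow_mem {r : ℕ} (G : Gens A r) {m N : ℕ} (hN : 0 < N) (z : Fin m → R)
    (hz : ∀ i, z i ∈ A N) (hrad : ∀ k, ∃ e : ℕ, G.x k ^ e ∈ Ideal.span (Set.range z)) :
    (MvPolynomial.aeval z : MvPolynomial (Fin m) ℂ →ₐ[ℂ] R).toRingHom.Finite := by
  classical
  choose e he using hrad
  let _ : Algebra (MvPolynomial (Fin m) ℂ) R := (MvPolynomial.aeval z : MvPolynomial (Fin m) ℂ →ₐ[ℂ] R).toRingHom.toAlgebra
  have hmap : ∀ p : MvPolynomial (Fin m) ℂ, algebraMap (MvPolynomial (Fin m) ℂ) R p = MvPolynomial.aeval z p :=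
    fun p => rfl
  have hC : ∀ (c : ℂ) (y : R), c • y = (C c : MvPolynomial (Fin m) ℂ) • y := by
    intro c y
    rw [Algebra.smul_def, Algebra.smul_def, hmap]
    simp
  have hX : ∀ (i : Fin m) (y : R), z i * y = (X i : MvPolynomial (Fin m) ℂ) • y := by
    intro i y
    rw [Algebra.smul_def, hmap]
    simp
  -- the finite set of monomials
  let B : Finset R := (Fintype.piFinset fun k => Finset.range (e k)).image fun α => ∏ k, G.x k ^ α k
  let T : Submodule (MvPolynomial (Fin m) ℂ) R := Submodule.span _ (B : Set R)
  have hBT : ∀ b ∈ B, b ∈ T := fun b hb => Submodule.subset_span hb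
  -- every element is a combination of elements of B modulo the ideal
  have hdec : ∀ f : R, ∃ a ∈ Submodule.span ℂ (B : Set R), ∃ u ∈ Ideal.span (Set.range z), f = a + u := by
    intro f
    have hf : f ∈ Algebra.adjoin ℂ (Set.range G.x) := by rw [G.gen]; trivial
    rw [Algebra.adjoin_range_eq_range_aeval] at hf
    obtain ⟨p, rfl⟩ := hf
    change ∃ a ∈ Submodule.span ℂ (B : Set R), ∃ u ∈ Ideal.span (Set.range z), MvPolynomial.aeval G.x p = a + u
    rw [MvPolynomial.aeval_def, MvPolynomial.eval₂_eq']
    refine Finset.sum_induction _ (fun f => ∃ a ∈ Submodule.span ℂ (B : Set R), ∃ u ∈ Ideal.span (Set.range z), f = a + u)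
      ?_ ⟨0, zero_mem _, 0, zero_mem _, by simp⟩ ?_
    · rintro _ _ ⟨a, ha, u, hu, rfl⟩ ⟨a', ha', u', hu', rfl⟩
      exact ⟨a + a', add_mem ha ha', u + u', add_mem hu hu', by ring⟩
    · intro α _
      rw [← Algebra.smul_def]
      by_cases hα : ∀ k, α k < e k
      · refine ⟨_, Submodule.smul_mem _ (p.coeff α) (Submodule.subset_span ?_), 0, zero_mem _, (add_zero _).symm⟩
        simp only [B, Finset.coe_image, Set.mem_image, Finset.mem_coe, Fintype.mem_piFinset, Finset.mem_range]
        exact ⟨fun k => α k, hα, rfl⟩
      · push Not at hα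
        obtain ⟨k, hk⟩ := hα
        refine ⟨0, zero_mem _, _, ?_, (zero_add _).symm⟩
        rw [Algebra.smul_def]
        refine Ideal.mul_mem_left _ _ ?_
        rw [← Finset.mul_prod_erase Finset.univ (fun k => G.x k ^ α k) (Finset.mem_univ k)]
        refine Ideal.mul_mem_right _ _ ?_
        have : G.x k ^ α k = G.x k ^ (e k) * G.x k ^ (α k - e k) := by rw [← pow_add]; congr 1; omega
        rw [this]
        exact Ideal.mul_mem_right _ _ (he k)
  -- homogeneous components of elements of the span of B
  have hspan : ∀ a ∈ Submodule.span ℂ (B : Set R), ∀ d, (DirectSum.decompose A a d : R) ∈ T := by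
    intro a ha d
    induction ha using Submodule.span_induction with
    | mem b hb =>
      simp only [B, Finset.coe_image, Set.mem_image, Finset.mem_coe] at hb
      obtain ⟨α, hα, rfl⟩ := hb
      have hmem := G.monomial_mem α
      by_cases hd : (∑ k, α k * G.w k) = d
      · subst hd
        rw [DirectSum.decompose_of_mem_same A hmem]
        refine hBT _ ?_
        simp only [B, Finset.mem_image]
        exact ⟨α, hα, rfl⟩
      · rw [DirectSum.decompose_of_mem_ne A hmem hd]
        exact zero_mem _
    | zero => rw [DirectSum.decompose_zero]; exact zero_mem _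
    | add a b _ _ h1 h2 => rw [DirectSum.decompose_add]; exact add_mem h1 h2
    | smul c a _ h =>
      have : (DirectSum.decompose A (c • a) d : R) = c • (DirectSum.decompose A a d : R) := by
        rw [DirectSum.decompose_smul]; rfl
      rw [this, hC]
      exact Submodule.smul_mem _ _ h
  -- strong induction on the degree
  have hhom : ∀ d : ℕ, ∀ f ∈ A d, f ∈ T := by
    intro d
    induction d using Nat.strong_induction_on with
    | _ d ih =>
      intro f hf
      obtain ⟨a, ha, u, hu, hfu⟩ := hdec f
      have h1 : f = (DirectSum.decompose A a d : R) + (DirectSum.decompose A u d : R) := by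
        have := congrArg (fun g => (DirectSum.decompose A g d : R)) hfu
        simp only [DirectSum.decompose_add] at this
        rw [DirectSum.decompose_of_mem_same A hf] at this
        exact this
      rw [h1]
      refine add_mem (hspan a ha d) ?_
      rw [Ideal.span, Submodule.mem_span_range_iff_exists_fun] at hu
      obtain ⟨c, rfl⟩ := hu
      rw [DirectSum.decompose_sum]
      have h2 : ((∑ i, DirectSum.decompose A (c i • z i)) d : R)
          = ∑ i, (DirectSum.decompose A (c i • z i) d : R) := by
        rw [DFinsupp.finsetSum_apply]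
        simp
      rw [h2]
      refine sum_mem fun i _ => ?_
      rw [smul_eq_mul, mul_comm]
      by_cases hNd : N ≤ d
      · rw [DirectSum.coe_decompose_mul_of_left_mem_of_le A (hz i) hNd, hX]
        exact Submodule.smul_mem _ _ (ih (d - N) (by omega) _ (DirectSum.decompose A (c i) (d - N)).2)
      · rw [DirectSum.coe_decompose_mul_of_left_mem_of_not_le A (hz i) hNd]
        exact zero_mem _
  have htop : T = ⊤ := by
    rw [eq_top_iff]
    intro f _
    rw [← DirectSum.sum_support_decompose A f]
    exact sum_mem fun d _ => hhom d _ (DirectSum.decompose A f d).2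
  change Module.Finite (MvPolynomial (Fin m) ℂ) R
  exact ⟨⟨B, htop⟩⟩

end Vale.Agent.P271.H989
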