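import Vale.Agent.P271.H741.Grad

/-!
# P271 [NP3]: homogeneous elements of ideals of `ℂ[z]` stable under the torus action
-/

namespace Vale.Agent.P271.H989

open Vale.Agent.P282.L2 Vale.Agent.P271.H741 MvPolynomial

theorem sub_of_isHomogeneous {d D k : ℕ} (t : ℂˣ) {f : Pol d} (hf : f.IsHomogeneous k) :
    sub D t f = C ((t : ℂ) ^ (D * k)) * f := by
  classical
  unfold sub
  rw [aeval_def, eval₂_eq']
  conv_rhs => rw [f.as_sum, Finset.mul_sum]
  refine Finset.sum_congr rfl fun α hα => ?_
  have hdeg : ∑ i, α i = k := by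
    have h1 := hf (mem_support_iff.1 hα)
    rw [Finsupp.weight_apply, Finsupp.sum_fintype _ _ (by simp)] at h1
    simpa using h1
  have h2 : ∏ i, (C ((t : ℂ) ^ D) * X i : Pol d) ^ α i =
      C ((t : ℂ) ^ (D * k)) * ∏ i, (X i : Pol d) ^ α i := by
    simp_rw [mul_pow]
    rw [Finset.prod_mul_distrib, Finset.prod_pow_eq_pow_sum, hdeg, ← map_pow, ← pow_mul]
  rw [h2, monomial_eq, Finsupp.prod_fintype _ _ (by simp), algebraMap_eq]
  ring

theorem sub_eq_sum {d D : ℕ} (t : ℂˣ) (f : Pol d) :
    sub D t f = ∑ k ∈ Finset.range (f.totalDegree + 1), ((t : ℂ) ^ D) ^ k • homogeneousComponent k f := by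
  conv_lhs => rw [← sum_homogeneousComponent f, map_sum]
  refine Finset.sum_congr rfl fun k _ => ?_
  rw [sub_of_isHomogeneous t (homogeneousComponent_isHomogeneous k f), ← pow_mul, smul_eq_C_mul]

/-- The homogeneous components of the elements of a stable subspace are in it. -/
theorem homogeneousComponent_mem {d D : ℕ} (hD : 0 < D) (I : Submodule ℂ (Pol d))
    (hI : ∀ t : ℂˣ, ∀ f ∈ I, sub D t f ∈ I) {f : Pol d} (hf : f ∈ I) (k : ℕ) :
    homogeneousComponent k f ∈ I := by
  classical
  by_cases hk : k < f.totalDegree + 1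
  swap
  · rw [homogeneousComponent_eq_zero k f (by omega)]
    exact zero_mem _
  rw [← Submodule.Quotient.mk_eq_zero, ← Module.forall_dual_apply_eq_zero_iff ℂ]
  intro ℓ
  let p : Polynomial ℂ := ∑ k ∈ Finset.range (f.totalDegree + 1),
    Polynomial.monomial k (ℓ (Submodule.Quotient.mk (p := I) (homogeneousComponent k f)))
  have hp : p = 0 := by
    refine Polynomial.eq_zero_of_infinite_isRoot _ ?_
    refine Set.Infinite.mono (s := {0}ᶜ) ?_ (Set.Finite.infinite_compl (Set.finite_singleton 0))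
    intro s hs
    obtain ⟨u, hu⟩ := IsAlgClosed.exists_pow_nat_eq s hD
    have hu0 : u ≠ 0 := by
      rintro rfl
      rw [zero_pow hD.ne'] at hu
      exact hs hu.symm
    have h1 := hI (Units.mk0 u hu0) f hf
    rw [sub_eq_sum, Units.val_mk0, hu] at h1
    change Polynomial.eval s p = 0
    have h2 : ℓ (Submodule.Quotient.mk (p := I) (∑ k ∈ Finset.range (f.totalDegree + 1),
        s ^ k • homogeneousComponent k f)) = 0 := by
      rw [(Submodule.Quotient.mk_eq_zero I).2 h1, map_zero]
    rw [← h2, ← Submodule.mkQ_apply, map_sum, map_sum, Polynomial.eval_finsetSum]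
    refine Finset.sum_congr rfl fun k _ => ?_
    rw [map_smul, map_smul, Polynomial.eval_monomial, smul_eq_mul, mul_comm]
    rfl
  have h3 := congrArg (fun q => Polynomial.coeff q k) hp
  simp only [p, Polynomial.finsetSum_coeff, Polynomial.coeff_monomial, Polynomial.coeff_zero] at h3
  rw [Finset.sum_ite_eq' (Finset.range (f.totalDegree + 1)) k, if_pos (Finset.mem_range.2 hk)] at h3
  exact h3

theorem exists_homogeneous_mem {d D : ℕ} (hD : 0 < D) (I : Submodule ℂ (Pol d))
    (hI : ∀ t : ℂˣ, ∀ f ∈ I, sub D t f ∈ I) {f : Pol d} (hf : f ∈ I) (hf0 : f ≠ 0) :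
    ∃ (k : ℕ) (h : Pol d), h.IsHomogeneous k ∧ h ∈ I ∧ h ≠ 0 := by
  by_contra hcon
  push Not at hcon
  refine hf0 ?_
  rw [← sum_homogeneousComponent f]
  exact Finset.sum_eq_zero fun k _ => hcon k _ (homogeneousComponent_isHomogeneous k f)
    (homogeneousComponent_mem hD I hI hf k)

end Vale.Agent.P271.H989
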