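import Vale.Agent.P271.H741.Sc

/-!
# P271: homogeneous elements of the fraction field are fractions of homogeneous elements
-/

namespace Vale.Agent.P271.H989

open Vale.Agent.P271.H741 Vale.Agent.P271.Sch

variable {R : Type} [CommRing R] [IsDomain R] [Algebra ℂ R] (A : ℕ → Submodule ℂ R)
  [GradedAlgebra A] {K : Type} [Field K] [Algebra R K] [IsFractionRing R K] [Algebra ℂ K]
  [IsScalarTower ℂ R K]

/-- The polynomial `∑ u_k X^k` with the homogeneous components of `u` as coefficients. -/
theorem exists_poly (u : R) : ∃ p : Polynomial K,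
    (∀ k, p.coeff k = algebraMap R K (DirectSum.decompose A u k : R)) ∧
    ∀ t : ℂˣ, p.eval (algebraMap ℂ K t) = scK A t (algebraMap R K u) := by
  classical
  refine ⟨∑ k ∈ (DirectSum.decompose A u).support,
    Polynomial.monomial k (algebraMap R K (DirectSum.decompose A u k : R)), fun k => ?_, fun t => ?_⟩
  · rw [Polynomial.finsetSum_coeff]
    simp only [Polynomial.coeff_monomial]
    rw [Finset.sum_ite_eq']
    split_ifs with h
    · rfl
    · rw [DFinsupp.notMem_support_iff] at h
      rw [h, ZeroMemClass.coe_zero, map_zero]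
  · rw [Polynomial.eval_finsetSum]
    conv_rhs => rw [← DirectSum.sum_support_decompose A u, map_sum, map_sum]
    refine Finset.sum_congr rfl fun k _ => ?_
    rw [Polynomial.eval_monomial, scK_mem A t (DirectSum.decompose A u k).2, map_pow, mul_comm]

/-- **Homogeneous fractions.** -/
theorem exists_hom_frac (hpos : ∃ k > 0, ∃ s ∈ A k, s ≠ 0) {f : K} {l : ℤ}
    (hf : ∀ t : ℂˣ, scK A t f = algebraMap ℂ K ((t : ℂ) ^ l) * f) :
    ∃ (i j : ℕ) (a b : R), a ∈ A i ∧ b ∈ A j ∧ b ≠ 0 ∧ (i : ℤ) = j + l ∧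
      f = algebraMap R K a / algebraMap R K b := by
  classical
  have hinj : Function.Injective (algebraMap R K) := IsFractionRing.injective R K
  obtain ⟨u, v, hv, hfuv⟩ := IsFractionRing.div_surjective (A := R) f
  have hv0 : v ≠ 0 := nonZeroDivisors.ne_zero hv
  have hvK : algebraMap R K v ≠ 0 := by rwa [Ne, map_eq_zero_iff _ hinj]
  -- a nonzero component of `v`
  obtain ⟨k, hk⟩ : ∃ k, (DirectSum.decompose A v k : R) ≠ 0 := by
    by_contra hcon
    push Not at hcon
    apply hv0
    rw [← DirectSum.sum_support_decompose A v]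
    exact Finset.sum_eq_zero fun k _ => hcon k
  have hkK : algebraMap R K (DirectSum.decompose A v k : R) ≠ 0 := by
    rwa [Ne, map_eq_zero_iff _ hinj]
  have huK : algebraMap R K u = f * algebraMap R K v := by
    rw [← hfuv]; field_simp
  set L := l.natAbs with hL
  obtain ⟨q, hq⟩ : ∃ q : ℕ, (q : ℤ) = l + L := ⟨(l + L).toNat, by omega⟩
  obtain ⟨pu, hpu, hpu'⟩ := exists_poly A (K := K) u
  obtain ⟨pv, hpv, hpv'⟩ := exists_poly A (K := K) v
  have hPQ : Polynomial.X ^ L * pu = Polynomial.X ^ q * (Polynomial.C f * pv) := by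
    refine Polynomial.eq_of_infinite_eval_eq _ _ ?_
    have hinjC : Function.Injective (algebraMap ℂ K) := (algebraMap ℂ K).injective
    refine Set.Infinite.mono (s := algebraMap ℂ K '' {0}ᶜ) ?_
      (Set.Infinite.image hinjC.injOn (Set.Finite.infinite_compl (Set.finite_singleton 0)))
    rintro _ ⟨s, hs, rfl⟩
    have hs' : s ≠ 0 := hs
    have h1 := congrArg (scK A (K := K) (Units.mk0 s hs')) huK
    rw [map_mul, hf, ← hpu', ← hpv', Units.val_mk0] at h1
    change Polynomial.eval _ _ = Polynomial.eval _ _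
    rw [Polynomial.eval_mul, Polynomial.eval_mul, Polynomial.eval_mul, Polynomial.eval_pow,
      Polynomial.eval_pow, Polynomial.eval_X, Polynomial.eval_C, h1, ← map_pow, ← map_pow]
    have h2 : s ^ q = s ^ L * s ^ l := by
      rw [← zpow_natCast s q, hq, zpow_add₀ hs', zpow_natCast, mul_comm]
    rw [h2, map_mul]
    ring
  have hco := congrArg (fun p => Polynomial.coeff p (q + k)) hPQ
  simp only [Polynomial.coeff_X_pow_mul', Polynomial.coeff_C_mul] at hco
  rw [if_pos (Nat.le_add_right q k), Nat.add_sub_cancel_left, hpv, hpu] at hco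
  by_cases hLq : L ≤ q + k
  · rw [if_pos hLq] at hco
    refine ⟨q + k - L, k, _, _, (DirectSum.decompose A u (q + k - L)).2,
      (DirectSum.decompose A v k).2, hk, by omega, ?_⟩
    rw [hco]
    field_simp
  · rw [if_neg hLq] at hco
    have hf0 : f = 0 := by
      rcases mul_eq_zero.1 hco.symm with h | h
      · exact h
      · exact absurd h hkK
    obtain ⟨k₁, hk₁, s, hs, hs0⟩ := hpos
    have hsL : s ^ L ∈ A (L * k₁) := by
      have := SetLike.pow_mem_graded (A := A) L hs
      rwa [smul_eq_mul] at this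
    have h1 : L ≤ L * k₁ := Nat.le_mul_of_pos_right _ hk₁
    obtain ⟨i, hi⟩ : ∃ i : ℕ, (i : ℤ) = ((k + L * k₁ : ℕ) : ℤ) + l :=
      ⟨(((k + L * k₁ : ℕ) : ℤ) + l).toNat, by omega⟩
    refine ⟨i, k + L * k₁, 0, _, zero_mem _,
      SetLike.mul_mem_graded (DirectSum.decompose A v k).2 hsL,
      mul_ne_zero hk (pow_ne_zero _ hs0), hi, ?_⟩
    rw [hf0, map_zero, zero_div]

end Vale.Agent.P271.H989
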