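import Vale.Agent.P271.H989.Choice

/-!
# P271 [NP2]: homogeneous primitive elements
-/

namespace Vale.Agent.P271.H989

open MvPolynomial

section

variable {R : Type*} [CommRing R] [Algebra ℂ R] {A : ℕ → Submodule ℂ R} [GradedAlgebra A]

/-- Two ring homomorphisms to a field which agree on `A (1 + N E)` agree. -/
theorem eq_of_eq_on {L : Type*} [Field L] {r : ℕ} (G : Gens A r) {N : ℕ}
    {z0 : R} (hz0 : z0 ∈ A N) {g : ℕ} {c : R} (hc : c ∈ A (1 + N * g)) {E : ℕ} (hgE : g ≤ E)
    (hE : ∀ k, G.w k + ((N - 1) * G.w k + 1) * g ≤ E) (hN : 0 < N)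
    (σ τ : R →+* L) (hC : ∀ a : ℂ, σ (algebraMap ℂ R a) = τ (algebraMap ℂ R a))
    (hσz : σ z0 = τ z0) (hσz0 : σ z0 ≠ 0) (hσc : σ c ≠ 0)
    (h : ∀ a ∈ A (1 + N * E), σ a = τ a) : σ = τ := by
  have hc' : σ c = τ c := by
    have h1 : c * z0 ^ (E - g) ∈ A (1 + N * E) := by
      have := SetLike.mul_mem_graded hc (SetLike.pow_mem_graded (A := A) (E - g) hz0)
      have h2 : 1 + N * g + (E - g) • N = 1 + N * E := by
        obtain ⟨e, rfl⟩ := Nat.exists_eq_add_of_le hgE
        rw [Nat.add_sub_cancel_left, smul_eq_mul]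
        ring
      rwa [h2] at this
    have h3 := h _ h1
    rw [map_mul, map_mul, map_pow, map_pow, hσz] at h3
    exact mul_right_cancel₀ (pow_ne_zero _ (by rw [← hσz]; exact hσz0)) h3
  have hx : ∀ k, σ (G.x k) = τ (G.x k) := by
    intro k
    have hk := hE k
    have h1 : G.x k * c ^ ((N - 1) * G.w k + 1) * z0 ^ (E - (G.w k + ((N - 1) * G.w k + 1) * g)) ∈
        A (1 + N * E) := by
      have := SetLike.mul_mem_graded (SetLike.mul_mem_graded (G.mem k)
        (SetLike.pow_mem_graded (A := A) ((N - 1) * G.w k + 1) hc))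
        (SetLike.pow_mem_graded (A := A) (E - (G.w k + ((N - 1) * G.w k + 1) * g)) hz0)
      have h2 : G.w k + ((N - 1) * G.w k + 1) • (1 + N * g) +
          (E - (G.w k + ((N - 1) * G.w k + 1) * g)) • N = 1 + N * E := by
        obtain ⟨e, he⟩ := Nat.exists_eq_add_of_le hk
        obtain ⟨N', rfl⟩ : ∃ N', N = N' + 1 := ⟨N - 1, by omega⟩
        rw [he, Nat.add_sub_cancel_left, smul_eq_mul, smul_eq_mul, Nat.add_sub_cancel]
        ring
      rwa [h2] at this
    have h3 := h _ h1
    rw [map_mul, map_mul, map_mul, map_mul, map_pow, map_pow, map_pow, map_pow, hσz, ← hc'] at h3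
    have h4 := mul_right_cancel₀ (pow_ne_zero _ (by rw [← hσz]; exact hσz0)) h3
    exact mul_right_cancel₀ (pow_ne_zero _ hσc) h4
  ext f
  have hf : f ∈ Algebra.adjoin ℂ (Set.range G.x) := by rw [G.gen]; trivial
  induction hf using Algebra.adjoin_induction with
  | mem x hx' => obtain ⟨i, rfl⟩ := hx'; exact hx i
  | algebraMap c => exact hC c
  | add x y _ _ hx hy => rw [map_add, map_add, hx, hy]
  | mul x y _ _ hx hy => rw [map_mul, map_mul, hx, hy]

/-- A homogeneous element of degree `1 + N g` not vanishing at `φ`. -/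
theorem exists_c (φ : R →ₐ[ℂ] ℂ) {k : ℕ} {s s' : R} (hs : s ∈ A k)
    (hs' : s' ∈ A (k + 1)) (hs0 : φ s ≠ 0) (hs0' : φ s' ≠ 0) {M : ℕ} (hM : k * k ≤ M) :
    ∃ c ∈ A M, φ c ≠ 0 := by
  obtain ⟨a, b, hab⟩ := exists_rep k M hM
  refine ⟨s ^ a * s' ^ b, ?_, ?_⟩
  · have h1 := SetLike.pow_mem_graded (A := A) a hs
    have h2 := SetLike.pow_mem_graded (A := A) b hs'
    have := SetLike.mul_mem_graded h1 h2
    simp only [smul_eq_mul, hab] at this
    exact this
  · rw [map_mul, map_pow, map_pow]
    exact mul_ne_zero (pow_ne_zero _ hs0) (pow_ne_zero _ hs0')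

end

/-- **Homogeneous primitive elements.** -/
theorem exists_theta {R : Type} [CommRing R] [IsDomain R] [Algebra ℂ R]
    {A : ℕ → Submodule ℂ R} [GradedAlgebra A] {r : ℕ} (G : Gens A r)
    {P : Type} [CommRing P] [IsDomain P] [Algebra ℂ P] [Algebra P R] [IsScalarTower ℂ P R]
    [Module.Finite P R] [FaithfulSMul P R]
    {F K : Type} [Field F] [Algebra P F] [IsFractionRing P F] [Algebra ℂ F] [IsScalarTower ℂ P F]
    [Field K] [Algebra R K] [IsFractionRing R K] [Algebra ℂ K] [IsScalarTower ℂ R K]
    [Algebra P K] [IsScalarTower P R K] [Algebra F K] [IsScalarTower P F K]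
    [FiniteDimensional F K] [CharZero F]
    {N : ℕ} (hN : 0 < N) {z0 : P} (hz0 : algebraMap P R z0 ∈ A N) (hz00 : z0 ≠ 0)
    (φ : R →ₐ[ℂ] ℂ) {k : ℕ} {s s' : R} (hs : s ∈ A k)
    (hs' : s' ∈ A (k + 1)) (hs0 : φ s ≠ 0) (hs0' : φ s' ≠ 0) :
    ∃ E0 : ℕ, ∀ E ≥ E0, ∃ θ ∈ A (1 + N * E), φ θ ≠ 0 ∧
      ∀ a : K, ∃ q : Polynomial F, Polynomial.aeval (algebraMap R K θ) q = a := by
  classical
  obtain ⟨c, hc, hcφ⟩ := exists_c (A := A) φ hs hs' hs0 hs0' (M := 1 + N * (k * k)) (by nlinarith)
  refine ⟨k * k + ∑ i, (G.w i + ((N - 1) * G.w i + 1) * (k * k)), fun E hE => ?_⟩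
  have hgE : k * k ≤ E := by omega
  have hEk : ∀ i, G.w i + ((N - 1) * G.w i + 1) * (k * k) ≤ E := by
    intro i
    have := Finset.single_le_sum (f := fun i => G.w i + ((N - 1) * G.w i + 1) * (k * k))
      (fun i _ => Nat.zero_le _) (Finset.mem_univ i)
    omega
  have hc0 : c ≠ 0 := by rintro rfl; simp at hcφ
  let Ω := AlgebraicClosure F
  let pr := {p : (K →ₐ[F] Ω) × (K →ₐ[F] Ω) // p.1 ≠ p.2}
  -- the subspaces to avoid
  let V : Option pr → Submodule ℂ (A (1 + N * E)) := fun o => match o with
    | none => (LinearMap.ker φ.toLinearMap).comap (A (1 + N * E)).subtype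
    | some p =>
      { carrier := {a | p.1.1 (algebraMap R K (a : R)) = p.1.2 (algebraMap R K (a : R))}
        add_mem' := by
          intro a b ha hb
          simp only [Set.mem_ofPred_eq] at ha hb ⊢
          rw [Submodule.coe_add, map_add, map_add, map_add, ha, hb]
        zero_mem' := by simp
        smul_mem' := by
          intro t a ha
          simp only [Set.mem_ofPred_eq] at ha ⊢
          have h1 : algebraMap R K ((t • a : A (1 + N * E)) : R) =
              algebraMap F K (algebraMap ℂ F t) * algebraMap R K (a : R) := by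
            have h2 : ((t • a : A (1 + N * E)) : R) = algebraMap ℂ R t * (a : R) := by
              rw [← Algebra.smul_def]; rfl
            rw [h2, map_mul]
            congr 1
            rw [IsScalarTower.algebraMap_apply ℂ P R, ← IsScalarTower.algebraMap_apply P R K,
              IsScalarTower.algebraMap_apply P F K, ← IsScalarTower.algebraMap_apply ℂ P F]
          rw [h1, map_mul, map_mul, ha, AlgHom.commutes, AlgHom.commutes] }
  have hfin : Finite (Option pr) := inferInstance
  obtain ⟨a, ha⟩ : ∃ a : A (1 + N * E), ∀ o, a ∉ V o := by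
    by_contra hcon
    push Not at hcon
    obtain ⟨o, ho⟩ := Subspace.exists_eq_top_of_iUnion_eq_univ (p := V) (by
      rw [Set.eq_univ_iff_forall]
      intro a
      obtain ⟨o, ho⟩ := hcon a
      exact Set.mem_iUnion.2 ⟨o, ho⟩)
    rcases o with _ | p
    · obtain ⟨c', hc', hc'φ⟩ := exists_c (A := A) φ hs hs' hs0 hs0' (M := 1 + N * E) (by nlinarith)
      have : (⟨c', hc'⟩ : A (1 + N * E)) ∈ V none := by rw [ho]; trivial
      exact hc'φ this
    · refine p.2 ?_
      have hall : ∀ a ∈ A (1 + N * E), p.1.1 (algebraMap R K a) = p.1.2 (algebraMap R K a) := by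
        intro a ha
        have : (⟨a, ha⟩ : A (1 + N * E)) ∈ V (some p) := by rw [ho]; trivial
        exact this
      have hP : ∀ q : P, algebraMap R K (algebraMap P R q) = algebraMap F K (algebraMap P F q) := by
        intro q
        rw [← IsScalarTower.algebraMap_apply P R K, IsScalarTower.algebraMap_apply P F K]
      have hinjK : Function.Injective (algebraMap R K) := IsFractionRing.injective R K
      have h1 := eq_of_eq_on G hz0 hc hgE hEk hN
        ((p.1.1 : K →+* Ω).comp (algebraMap R K)) ((p.1.2 : K →+* Ω).comp (algebraMap R K))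
        (by
          intro t
          simp only [RingHom.comp_apply, RingHom.coe_coe]
          rw [IsScalarTower.algebraMap_apply ℂ P R, hP, AlgHom.commutes, AlgHom.commutes])
        (by
          simp only [RingHom.comp_apply, RingHom.coe_coe]
          rw [hP, AlgHom.commutes, AlgHom.commutes])
        (by
          simp only [RingHom.comp_apply, RingHom.coe_coe]
          rw [Ne, map_eq_zero, map_eq_zero_iff _ hinjK,
            map_eq_zero_iff _ (FaithfulSMul.algebraMap_injective P R)]
          exact hz00)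
        (by
          simp only [RingHom.comp_apply, RingHom.coe_coe]
          rw [Ne, map_eq_zero, map_eq_zero_iff _ hinjK]
          exact hc0)
        hall
      ext x
      obtain ⟨u, v, hv, rfl⟩ := IsFractionRing.div_surjective (A := R) x
      have h2 := fun y => RingHom.congr_fun h1 y
      simp only [RingHom.comp_apply, RingHom.coe_coe] at h2
      rw [map_div₀, map_div₀, h2, h2]
  refine ⟨a, a.2, ?_, ?_⟩
  · exact ha none
  · have htop : IntermediateField.adjoin F {algebraMap R K (a : R)} = ⊤ := by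
      rw [Field.primitive_element_iff_algHom_eq_of_eval' F Ω
        (fun x => IsAlgClosed.splits _)]
      intro σ τ hστ
      by_contra hne
      exact ha (some ⟨(σ, τ), hne⟩) hστ
    intro b
    have h1 : b ∈ (⊤ : IntermediateField F K) := trivial
    rw [← htop] at h1
    have h2 : b ∈ (IntermediateField.adjoin F {algebraMap R K (a : R)}).toSubalgebra := h1
    rw [IntermediateField.adjoin_simple_toSubalgebra_of_isAlgebraic
      (Algebra.IsAlgebraic.isAlgebraic _), Algebra.adjoin_singleton_eq_range_aeval] at h2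
    exact h2

end Vale.Agent.P271.H989
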