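import Vale.Agent.P271.H989.PrimH
import Vale.Agent.P271.H989.Np1
import Vale.Agent.P271.H989.Theta
import Vale.Agent.P271.H741.Cov

/-!
# P271 [NP]: graded Noether normalisation étale at a point, homogeneous primitive element,
homogeneous discriminant: the structure `Cov` of helper741
-/

namespace Vale.Agent.P271.H989

open Vale.Agent.P282.L2 Vale.Agent.P271.H741 Vale.Agent.P271.Sch

/-- Values of homogeneous polynomials at homogeneous elements of degree `N`. -/
theorem aeval_mem_of_isHomogeneous {R : Type*} [CommRing R] [Algebra ℂ R]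
    {A : ℕ → Submodule ℂ R} [GradedAlgebra A] {d N k : ℕ} {z : Fin d → R}
    (hz : ∀ i, z i ∈ A N) {f : Pol d} (hf : f.IsHomogeneous k) :
    MvPolynomial.aeval z f ∈ A (N * k) := by
  classical
  rw [MvPolynomial.aeval_def, MvPolynomial.eval₂_eq']
  refine sum_mem fun α hα => ?_
  rw [← Algebra.smul_def]
  refine Submodule.smul_mem _ _ ?_
  have hdeg : ∑ i, α i = k := by
    have h1 := hf (MvPolynomial.mem_support_iff.1 hα)
    rw [Finsupp.weight_apply, Finsupp.sum_fintype _ _ (by simp)] at h1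
    simpa using h1
  have h2 := SetLike.prod_mem_graded A (fun i => α i * N) (fun i => z i ^ α i) (F := Finset.univ)
    (fun i _ => by
      have := SetLike.pow_mem_graded (A := A) (α i) (hz i)
      rwa [smul_eq_mul] at this)
  rw [← Finset.sum_mul, hdeg, mul_comm] at h2
  exact h2

theorem scK_inv {R : Type} [CommRing R] [IsDomain R] [Algebra ℂ R]
    (A : ℕ → Submodule ℂ R) [GradedAlgebra A] {K : Type} [Field K] [Algebra R K]
    [IsFractionRing R K] [Algebra ℂ K] [IsScalarTower ℂ R K] (t : ℂˣ) (a : K) :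
    scK A t (scK A t⁻¹ a) = a := by
  obtain ⟨u, v, hv, rfl⟩ := IsFractionRing.div_surjective (A := R) a
  have h : ∀ u : R, scK A (K := K) t (scK A t⁻¹ (algebraMap R K u)) = algebraMap R K u := by
    intro u
    rw [scK_alg, scK_alg, ← AlgHom.comp_apply, ← sc_mul, Units.mul_inv, sc_one]
    rfl
  rw [map_div₀, map_div₀, h, h]

/-- **Graded Noether normalisation with all data.** -/
theorem exists_cov {n : ℕ} (C : GCone n) (φ : C.Pt) (hφ : GCone.NV φ) {g0 : C.R} {k0 : ℕ}
    (hg0 : g0 ∈ C.A k0) (hg0' : g0 ≠ 0) (M : ℕ) (hM : 0 < M) :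
    ∃ (_ : Algebra (Pol (n + 1)) C.K) (_ : IsScalarTower ℂ (Pol (n + 1)) C.K)
      (_ : FaithfulSMul (Pol (n + 1)) C.K) (_ : Algebra (FractionRing (Pol (n + 1))) C.K)
      (_ : IsScalarTower (Pol (n + 1)) (FractionRing (Pol (n + 1))) C.K)
      (_ : FiniteDimensional (FractionRing (Pol (n + 1))) C.K) (V : Cov C),
      M ∣ V.N ∧ (∃ j, V.e = 1 + V.N * j) ∧ (∀ i, φ (V.z i) ≠ 0) ∧ φ V.θ ≠ 0 ∧
      (∃ b, V.h' = g0 * b) ∧
      (MvPolynomial.aeval V.z : Pol (n + 1) →ₐ[ℂ] C.R).toRingHom.Finite ∧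
      Function.Injective (MvPolynomial.aeval V.z : Pol (n + 1) →ₐ[ℂ] C.R) ∧
      LinearMap.range (dl φ) ≤ Submodule.span ℂ (Set.range fun i => dl φ (V.z i)) := by
  classical
  obtain ⟨N0, hN0, hN0'⟩ := exists_noether C φ hφ
  obtain ⟨z, hz, hzφ, hfin, hinj, hsp⟩ := hN0' (N0 * M) (Nat.mul_pos hN0 hM) (dvd_mul_right _ _)
  have hN : 0 < N0 * M := Nat.mul_pos hN0 hM
  set N := N0 * M with hNdef
  let ι : Pol (n + 1) →ₐ[ℂ] C.R := MvPolynomial.aeval z
  let algPR : Algebra (Pol (n + 1)) C.R := ι.toRingHom.toAlgebra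
  have hmapR : ∀ f : Pol (n + 1), algebraMap (Pol (n + 1)) C.R f = MvPolynomial.aeval z f :=
    fun f => rfl
  have hstR : IsScalarTower ℂ (Pol (n + 1)) C.R := by
    refine IsScalarTower.of_algebraMap_eq fun c => ?_
    rw [hmapR, MvPolynomial.algebraMap_eq, MvPolynomial.aeval_C]
  let algP : Algebra (Pol (n + 1)) C.K := inferInstance
  have hstPRK : IsScalarTower (Pol (n + 1)) C.R C.K := inferInstance
  have hmapK : ∀ f : Pol (n + 1), algebraMap (Pol (n + 1)) C.K f
      = algebraMap C.R C.K (MvPolynomial.aeval z f) := fun f => by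
    rw [IsScalarTower.algebraMap_apply (Pol (n + 1)) C.R C.K]
    rfl
  have hst : IsScalarTower ℂ (Pol (n + 1)) C.K := by
    refine IsScalarTower.of_algebraMap_eq fun c => ?_
    rw [hmapK, MvPolynomial.algebraMap_eq, MvPolynomial.aeval_C,
      ← IsScalarTower.algebraMap_apply ℂ C.R C.K]
  have hinjR : Function.Injective (algebraMap (Pol (n + 1)) C.R) := hinj
  have hinjRK : Function.Injective (algebraMap C.R C.K) := IsFractionRing.injective C.R C.K
  have hinjK : Function.Injective (algebraMap (Pol (n + 1)) C.K) := by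
    intro f g hfg
    rw [hmapK, hmapK] at hfg
    exact hinj (hinjRK hfg)
  have hffR : FaithfulSMul (Pol (n + 1)) C.R := (faithfulSMul_iff_algebraMap_injective _ _).2 hinjR
  have hff : FaithfulSMul (Pol (n + 1)) C.K := (faithfulSMul_iff_algebraMap_injective _ _).2 hinjK
  have hfinR : Module.Finite (Pol (n + 1)) C.R := hfin
  let algF : Algebra (FractionRing (Pol (n + 1))) C.K := FractionRing.liftAlgebra _ _
  have hstF : IsScalarTower (Pol (n + 1)) (FractionRing (Pol (n + 1))) C.K :=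
    FractionRing.isScalarTower_liftAlgebra _ _
  have hfd : FiniteDimensional (FractionRing (Pol (n + 1))) C.K :=
    Module.Finite.of_isLocalization (Pol (n + 1)) C.R (nonZeroDivisors (Pol (n + 1)))
  have hch : CharZero (FractionRing (Pol (n + 1))) := px_charZero (n + 1)
  -- the primitive element
  obtain ⟨r, ⟨G⟩⟩ := exists_gens C.A C.finiteType C.zero
  have hmax : (RingHom.ker φ).IsMaximal := ker_isMaximal φ
  have hnv : ∃ k > 0, ∃ s ∈ C.A k, s ∉ RingHom.ker φ := hφ
  obtain ⟨k, s, hs, s', hs', hs0, hs0'⟩ := C.free (RingHom.ker φ) hnv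
  have hX0 : algebraMap (Pol (n + 1)) C.R (MvPolynomial.X 0) ∈ C.A N := by
    rw [hmapR, MvPolynomial.aeval_X]; exact hz 0
  obtain ⟨E0, hE0⟩ := exists_theta (P := Pol (n + 1)) (F := FractionRing (Pol (n + 1)))
    (K := C.K) G hN hX0 (MvPolynomial.X_ne_zero 0) φ hs hs' hs0 hs0'
  obtain ⟨θ, hθ, hθφ, hθgen⟩ := hE0 E0 le_rfl
  have hint : ∀ r : C.R, IsIntegral (Pol (n + 1)) (algebraMap C.R C.K r) := fun r =>
    (Algebra.IsIntegral.isIntegral (R := Pol (n + 1)) r).algebraMap
  obtain ⟨E1, hE1⟩ := exists_prim_of_gen (hint θ) hθgen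
  -- the grading
  let Gr0 : Gr (n + 1) C.K :=
    { D := N
      τ := scK C.A
      τ_z := fun t j => by
        have h1 : algebraMap (Pol (n + 1)) C.K (MvPolynomial.X j) = algebraMap C.R C.K (z j) := by
          rw [hmapK, MvPolynomial.aeval_X]
        rw [h1, scK_mem C.A t (hz j)] }
  have hhomR : ∀ {a : C.R} {k : ℕ}, a ∈ C.A k → Gr0.Hom (algebraMap C.R C.K a) k := by
    intro a k ha t
    change scK C.A t _ = _
    rw [scK_mem C.A t ha, zpow_natCast]
  have hy : Gr0.Hom E1.y ((1 + N * E0 : ℕ) : ℤ) := by rw [hE1]; exact hhomR hθ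
  -- the ideal
  let J : Ideal (Pol (n + 1)) := (Ideal.span {g0}).comap (algebraMap (Pol (n + 1)) C.R)
  have hJ0 : J ≠ ⊥ := Ideal.comap_ne_bot_of_integral_mem hg0'
    (Ideal.mem_span_singleton_self g0) (Algebra.IsIntegral.isIntegral (R := Pol (n + 1)) g0)
  have hJ : ∀ t : ℂˣ, ∀ f ∈ J, sub Gr0.D t f ∈ J := by
    intro t f hf
    obtain ⟨b, hb⟩ := Ideal.mem_span_singleton'.1 hf
    refine Ideal.mem_span_singleton'.2 ⟨algebraMap ℂ C.R ((t : ℂ) ^ k0) * sc C.A (t : ℂ) b, ?_⟩
    refine hinjRK ?_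
    have h1 : algebraMap C.R C.K (algebraMap (Pol (n + 1)) C.R (sub Gr0.D t f)) =
        Gr0.τ t (algebraMap (Pol (n + 1)) C.K f) := by
      rw [Gr0.τ_alg]
      rfl
    rw [h1]
    have h2 : algebraMap (Pol (n + 1)) C.K f = algebraMap C.R C.K (b * g0) := by
      rw [hb]; rfl
    have h3 : Gr0.τ t (algebraMap C.R C.K (b * g0)) =
        scK C.A (K := C.K) t (algebraMap C.R C.K b) * scK C.A (K := C.K) t (algebraMap C.R C.K g0) := by
      rw [← map_mul, ← map_mul]
    rw [h2, h3, scK_alg, scK_mem C.A t hg0, map_mul, map_mul, ← IsScalarTower.algebraMap_apply ℂ C.R C.K]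
    ring
  obtain ⟨E, kE, hEy, hEh, hEJ⟩ := exists_homPrim (G := Gr0) (fun t (a : C.K) => scK_inv C.A t a) hN E1
    (δ := 1 + N * E0) hy J hJ0 hJ
  let V : Cov C :=
    { N := N
      N_pos := hN
      z := z
      z_mem := hz
      hz := fun i => by rw [hmapK, MvPolynomial.aeval_X]
      int := hint
      E := E
      θ := θ
      e := 1 + N * E0
      θ_mem := hθ
      hθ := by rw [hEy, hE1]
      h' := MvPolynomial.aeval z E.h
      dh := N * kE
      h'_mem := aeval_mem_of_isHomogeneous hz hEh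
      hh := rfl }
  refine ⟨algP, hst, hff, algF, hstF, hfd, V, dvd_mul_left _ _, ⟨E0, rfl⟩, hzφ, hθφ, ?_, hfin, hinj,
    hsp⟩
  obtain ⟨b, hb⟩ := Ideal.mem_span_singleton'.1 hEJ
  exact ⟨b, by rw [mul_comm]; exact hb.symm⟩

end Vale.Agent.P271.H989
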