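import Vale.Agent.P271.H989.Params

/-!
# P271 [NP1]: graded Noether normalisation, étale at a given point
-/

namespace Vale.Agent.P271.H989

open MvPolynomial

variable {R : Type*} [CommRing R] [Algebra ℂ R] {A : ℕ → Submodule ℂ R} [GradedAlgebra A]

/-- A homogeneous prime which does not contain the irrelevant ideal is not maximal. -/
theorem not_isMaximal_of_homogeneous {r : ℕ} (G : Gens A r) {Q : Ideal R}
    (hQh : Q.IsHomogeneous A) (hQ : Rel G Q) : ¬ Q.IsMaximal := by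
  intro hmax
  obtain ⟨k, hk⟩ := hQ
  obtain ⟨y, i, hi, hy⟩ := hmax.exists_inv hk
  have h1 := (hQh.mem_iff).1 hi 0
  have h2 : i = 1 - G.x k * y := by rw [← hy]; ring
  have h3 : (DirectSum.decompose A i 0 : R) = 1 := by
    rw [h2, DirectSum.decompose_sub]
    have h4 : (DirectSum.decompose A (G.x k * y) 0 : R) = 0 :=
      DirectSum.coe_decompose_mul_of_left_mem_of_not_le A (G.mem k) (by have := G.pos k; omega)
    have h5 : (DirectSum.decompose A (1 : R) 0 : R) = 1 :=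
      DirectSum.decompose_of_mem_same A SetLike.GradedOne.one_mem
    rw [DirectSum.sub_apply]
    push_cast
    rw [h4, h5, sub_zero]
  rw [h3] at h1
  exact hmax.ne_top ((Ideal.eq_top_iff_one _).2 h1)

omit [GradedAlgebra A] in
theorem isJacobsonRing_of_gens {r : ℕ} (G : Gens A r) : IsJacobsonRing R := by
  have hs : Function.Surjective (MvPolynomial.aeval G.x : MvPolynomial (Fin r) ℂ →ₐ[ℂ] R) := by
    intro f
    have hf : f ∈ Algebra.adjoin ℂ (Set.range G.x) := by rw [G.gen]; trivial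
    rw [Algebra.adjoin_range_eq_range_aeval] at hf
    exact hf
  exact isJacobsonRing_of_surjective (R := MvPolynomial (Fin r) ℂ)
    ⟨(MvPolynomial.aeval G.x : MvPolynomial (Fin r) ℂ →ₐ[ℂ] R).toRingHom, hs⟩

/-- A minimal prime over homogeneous elements is homogeneous. -/
theorem minimalPrimes_homogeneous {m : ℕ} {z : Fin m → R} {d : Fin m → ℕ}
    (hz : ∀ i, z i ∈ A (d i)) {Q : Ideal R} (hQ : Q ∈ (Ideal.span (Set.range z)).minimalPrimes) :
    Q.IsHomogeneous A := by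
  have hc := Ideal.IsPrime.homogeneousCore (𝒜 := A) hQ.1.1
  have hle : (Q.homogeneousCore A).toIdeal ≤ Q := Ideal.toIdeal_homogeneousCore_le A Q
  have hI : Ideal.span (Set.range z) ≤ (Q.homogeneousCore A).toIdeal := by
    rw [Ideal.span_le]
    rintro _ ⟨i, rfl⟩
    exact Ideal.mem_homogeneousCore_of_homogeneous_of_mem ⟨d i, hz i⟩
      (hQ.1.2 (Ideal.subset_span ⟨i, rfl⟩))
  have := le_antisymm (hQ.2 ⟨hc, hI⟩ hle) hle
  rw [this]
  exact (Q.homogeneousCore A).isHomogeneous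

/-- After `n + 1` steps no relevant prime is left. -/
theorem mem_of_params [IsNoetherianRing R] {r n : ℕ} (G : Gens A r)
    (hdim : ∀ p : Ideal R, p.IsMaximal → Rel G p → p.height ≤ (n + 1 : ℕ))
    {z : Fin (n + 1) → R} {d : Fin (n + 1) → ℕ} (hz : ∀ i, z i ∈ A (d i))
    (hht : ∀ Q : Ideal R, Q.IsPrime → (∀ i, z i ∈ Q) → Rel G Q → ((n + 1 : ℕ) : ℕ∞) ≤ Q.height)
    (Q : Ideal R) (hQ : Q.IsPrime) (hzQ : ∀ i, z i ∈ Q) (k : Fin r) : G.x k ∈ Q := by
  by_contra hk
  obtain ⟨Q', hQ', hle⟩ := Ideal.exists_minimalPrimes_le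
    (I := Ideal.span (Set.range z)) (J := Q) (by
      rw [Ideal.span_le]; rintro _ ⟨i, rfl⟩; exact hzQ i)
  have hk' : G.x k ∉ Q' := fun h => hk (hle h)
  have hrel : Rel G Q' := ⟨k, hk'⟩
  have hQ'p := hQ'.1.1
  have hhom := minimalPrimes_homogeneous hz hQ'
  have hnm := not_isMaximal_of_homogeneous G hhom hrel
  -- a maximal ideal above which does not contain `x k`
  have hJ := isJacobsonRing_of_gens G
  have hjac : Q'.jacobson = Q' := hJ.out hQ'p.isRadical
  have hk'' : G.x k ∉ Q'.jacobson := by rw [hjac]; exact hk'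
  rw [Ideal.jacobson, Submodule.mem_sInf] at hk''
  push Not at hk''
  obtain ⟨p, ⟨hQp, hp⟩, hkp⟩ := hk''
  have hpp : Ideal.IsPrime p := Ideal.IsMaximal.isPrime hp
  have h1 := hht Q' hQ'p (fun i => hQ'.1.2 (Ideal.subset_span ⟨i, rfl⟩)) hrel
  have h2 := hdim p hp ⟨k, hkp⟩
  have hlt : Q' < p := by
    refine lt_of_le_of_ne hQp ?_
    rintro rfl
    exact hnm hp
  have h3 := Ideal.height_add_one_le_of_lt_of_isPrime hlt
  have h4 : ((n + 1 : ℕ) : ℕ∞) + 1 ≤ ((n + 1 : ℕ) : ℕ∞) :=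
    ((add_le_add_left h1 1).trans h3).trans h2
  have h5 : n + 1 + 1 ≤ n + 1 := by exact_mod_cast h4
  omega

theorem pow_mem_of_params [IsNoetherianRing R] {r n : ℕ} (G : Gens A r)
    (hdim : ∀ p : Ideal R, p.IsMaximal → Rel G p → p.height ≤ (n + 1 : ℕ))
    {z : Fin (n + 1) → R} {d : Fin (n + 1) → ℕ} (hz : ∀ i, z i ∈ A (d i))
    (hht : ∀ Q : Ideal R, Q.IsPrime → (∀ i, z i ∈ Q) → Rel G Q → ((n + 1 : ℕ) : ℕ∞) ≤ Q.height)
    (k : Fin r) : ∃ e : ℕ, G.x k ^ e ∈ Ideal.span (Set.range z) := by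
  have : G.x k ∈ (Ideal.span (Set.range z)).radical := by
    rw [Ideal.radical_eq_sInf, Submodule.mem_sInf]
    rintro Q ⟨hQ1, hQ2⟩
    exact mem_of_params G hdim hz hht Q hQ2 (fun i => hQ1 (Ideal.subset_span ⟨i, rfl⟩)) k
  exact this

omit [Algebra ℂ R] in
/-- Algebraic independence from the dimension. -/
theorem injective_of_height {m : ℕ} (f : MvPolynomial (Fin m) ℂ →+* R) (hf : f.Finite)
    (p : Ideal R) (hp : p.IsPrime) (hht : (m : ℕ∞) ≤ p.height) : Function.Injective f := by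
  by_contra hinj
  rw [injective_iff_map_eq_zero] at hinj
  push Not at hinj
  obtain ⟨g, hg, hg0⟩ := hinj
  let I := RingHom.ker f
  let f' : (MvPolynomial (Fin m) ℂ ⧸ I) →+* R := RingHom.kerLift f
  have hf' : Function.Injective f' := RingHom.kerLift_injective f
  let _ : Algebra (MvPolynomial (Fin m) ℂ ⧸ I) R := f'.toAlgebra
  have hint : Algebra.IsIntegral (MvPolynomial (Fin m) ℂ ⧸ I) R := by
    refine ⟨fun x => ?_⟩
    obtain ⟨q, hq, hq0⟩ := hf.to_isIntegral x
    refine ⟨q.map (Ideal.Quotient.mk I), hq.map _, ?_⟩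
    rw [Polynomial.eval₂_map]
    exact hq0
  have h1 : ringKrullDim R ≤ ringKrullDim (MvPolynomial (Fin m) ℂ ⧸ I) := by
    refine Order.krullDim_le_of_strictMono (PrimeSpectrum.comap (algebraMap (MvPolynomial (Fin m) ℂ ⧸ I) R)) ?_
    intro P Q hPQ
    have := P.2
    exact Ideal.IsIntegral.comap_lt_comap (R := MvPolynomial (Fin m) ℂ ⧸ I) hPQ
  have h2 : (p.height : WithBot ℕ∞) ≤ ringKrullDim R := Ideal.height_le_ringKrullDim_of_isPrime
  have h3 : ringKrullDim (MvPolynomial (Fin m) ℂ ⧸ I) + 1 ≤ ringKrullDim (MvPolynomial (Fin m) ℂ) :=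
    ringKrullDim_succ_le_of_surjective (Ideal.Quotient.mk I) Ideal.Quotient.mk_surjective
      (mem_nonZeroDivisors_of_ne_zero hg0) (Ideal.Quotient.eq_zero_iff_mem.2 hg)
  rw [MvPolynomial.ringKrullDim_of_isNoetherianRing, ringKrullDim_eq_zero_of_field, zero_add,
    Nat.card_eq_fintype_card, Fintype.card_fin] at h3
  have h4 : ((m : ℕ∞) : WithBot ℕ∞) + 1 ≤ ((m : ℕ∞) : WithBot ℕ∞) := by
    refine le_trans ?_ h3
    refine add_le_add_left ?_ 1
    exact le_trans (by exact_mod_cast hht) (h2.trans h1)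
  have h5 : ((m + 1 : ℕ) : ℕ∞) ≤ (m : ℕ∞) := by exact_mod_cast h4
  have h6 : m + 1 ≤ m := by exact_mod_cast h5
  omega

end Vale.Agent.P271.H989
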