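import Vale.Agent.P271.H989.Choice

/-!
# P271 [NP]: homogeneous parameters, étale at a point, over which the ring is finite
-/

namespace Vale.Agent.P271.H989

open MvPolynomial

variable {R : Type*} [CommRing R] [Algebra ℂ R] {A : ℕ → Submodule ℂ R} [GradedAlgebra A]

/-- The ideal `Q` does not contain the irrelevant ideal. -/
def Rel {r : ℕ} (G : Gens A r) (Q : Ideal R) : Prop := ∃ k, G.x k ∉ Q

theorem exists_mem_notMem {r : ℕ} (G : Gens A r) {N : ℕ} (hdvd : ∀ k, G.w k ∣ N) {Q : Ideal R}
    [Q.IsPrime] (hQ : Rel G Q) : ∃ a ∈ A N, a ∉ Q := by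
  obtain ⟨k, hk⟩ := hQ
  obtain ⟨c, hc⟩ := hdvd k
  refine ⟨G.x k ^ c, ?_, fun h => hk (Ideal.IsPrime.mem_of_pow_mem inferInstance _ h)⟩
  have := SetLike.pow_mem_graded (A := A) c (G.mem k)
  rwa [smul_eq_mul, mul_comm, ← hc] at this

/-- Step by step choice of homogeneous parameters of degree `N`. -/
theorem exists_params [IsNoetherianRing R] {r : ℕ} (G : Gens A r) {N : ℕ}
    (hdvd : ∀ k, G.w k ∣ N) (φ : R →ₐ[ℂ] ℂ)
    (hsp : LinearMap.range (dl φ) ≤ (A N).map (dl φ)) (hφ : ∃ a ∈ A N, φ a ≠ 0) (m : ℕ) :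
    ∃ z : Fin m → R, (∀ i, z i ∈ A N) ∧ (∀ i, φ (z i) ≠ 0) ∧
      (∀ Q : Ideal R, Q.IsPrime → (∀ i, z i ∈ Q) → Rel G Q → (m : ℕ∞) ≤ Q.height) ∧
      (LinearMap.range (dl φ) ≤ Submodule.span ℂ (Set.range fun i => dl φ (z i)) ∨
        LinearIndependent ℂ fun i => dl φ (z i)) := by
  classical
  induction m with
  | zero =>
    refine ⟨Fin.elim0, fun i => i.elim0, fun i => i.elim0, fun Q _ _ _ => by simp, Or.inr ?_⟩
    exact linearIndependent_empty_type
  | succ m ih =>
    obtain ⟨z, hz, hzφ, hht, hli⟩ := ih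
    -- the finitely many subspaces to avoid
    let I : Ideal R := Ideal.span (Set.range z)
    have hfin : I.minimalPrimes.Finite := Ideal.finite_minimalPrimes_of_isNoetherianRing R I
    let T : Submodule ℂ (R ⧸ (RingHom.ker φ) ^ 2) := Submodule.span ℂ (Set.range fun i => dl φ (z i))
    let F1 : Finset (Submodule ℂ (A N)) := (hfin.toFinset.filter fun Q => Rel G Q).image
      fun Q => (Q.restrictScalars ℂ).comap (A N).subtype
    let F : Finset (Submodule ℂ (A N)) := F1 ∪ {((LinearMap.ker φ.toLinearMap).comap (A N).subtype)} ∪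
      (if LinearMap.range (dl φ) ≤ T then ∅ else {(T.comap (dl φ)).comap (A N).subtype})
    have htop : (⊤ : Submodule ℂ (A N)) ∉ F := by
      simp only [F, F1, Finset.mem_union, Finset.mem_image, Finset.mem_filter, Finset.mem_singleton,
        Set.Finite.mem_toFinset, not_or, not_exists, not_and]
      refine ⟨⟨?_, ?_⟩, ?_⟩
      · rintro Q ⟨hQ, hrel⟩ h
        have := hQ.1.1
        obtain ⟨a, ha, haQ⟩ := exists_mem_notMem G hdvd hrel
        have h1 : (⟨a, ha⟩ : A N) ∈ (Q.restrictScalars ℂ).comap (A N).subtype := by rw [h]; trivial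
        exact haQ h1
      · intro h
        obtain ⟨a, ha, haφ⟩ := hφ
        have h1 : (⟨a, ha⟩ : A N) ∈ (LinearMap.ker φ.toLinearMap).comap (A N).subtype := by
          rw [← h]; trivial
        exact haφ h1
      · split_ifs with hT
        · simp
        · rw [Finset.mem_singleton]
          intro h
          refine hT (hsp.trans ?_)
          rintro _ ⟨a, ha, rfl⟩
          have h1 : (⟨a, ha⟩ : A N) ∈ (T.comap (dl φ)).comap (A N).subtype := by rw [← h]; trivial
          exact h1
    have hne := Subspace.biUnion_ne_univ_of_top_notMem htop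
    obtain ⟨a, ha⟩ := (Set.ne_univ_iff_exists_notMem _).1 hne
    simp only [Set.mem_iUnion, not_exists] at ha
    have haφ : φ (a : R) ≠ 0 := by
      intro h
      refine ha _ ?_ (show (a : A N) ∈ (LinearMap.ker φ.toLinearMap).comap (A N).subtype from h)
      simp [F]
    have haQ : ∀ Q ∈ I.minimalPrimes, Rel G Q → (a : R) ∉ Q := by
      intro Q hQ hrel h
      refine ha ((Q.restrictScalars ℂ).comap (A N).subtype) ?_ h
      simp only [F, F1, Finset.mem_union, Finset.mem_image, Finset.mem_filter, Set.Finite.mem_toFinset]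
      exact Or.inl (Or.inl ⟨Q, ⟨hQ, hrel⟩, rfl⟩)
    refine ⟨Fin.snoc z a, ?_, ?_, ?_, ?_⟩
    · intro i
      refine Fin.lastCases ?_ (fun j => ?_) i
      · rw [Fin.snoc_last]; exact a.2
      · rw [Fin.snoc_castSucc]; exact hz j
    · intro i
      refine Fin.lastCases ?_ (fun j => ?_) i
      · rw [Fin.snoc_last]; exact haφ
      · rw [Fin.snoc_castSucc]; exact hzφ j
    · intro Q hQ hmem hrel
      have hIQ : I ≤ Q := by
        rw [Ideal.span_le]
        rintro _ ⟨i, rfl⟩
        have := hmem i.castSucc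
        rwa [Fin.snoc_castSucc] at this
      obtain ⟨Q', hQ', hle⟩ := Ideal.exists_minimalPrimes_le hIQ
      have hQ'p := hQ'.1.1
      have hrel' : Rel G Q' := by
        obtain ⟨k, hk⟩ := hrel
        exact ⟨k, fun h => hk (hle h)⟩
      have hlt : Q' < Q := by
        refine lt_of_le_of_ne hle ?_
        rintro rfl
        have := hmem (Fin.last m)
        rw [Fin.snoc_last] at this
        exact haQ Q' hQ' hrel' this
      have h1 := hht Q' hQ'p (fun i => hQ'.1.2 (Ideal.subset_span ⟨i, rfl⟩)) hrel'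
      have h2 := Ideal.height_add_one_le_of_lt_of_isPrime hlt
      push_cast
      exact (add_le_add_left h1 1).trans h2
    · have hfun : (fun i => dl φ ((Fin.snoc z (a : R) : Fin (m + 1) → R) i))
          = Fin.snoc (fun i => dl φ (z i)) (dl φ (a : R)) := by
        funext i
        refine Fin.lastCases ?_ (fun j => ?_) i
        · rw [Fin.snoc_last, Fin.snoc_last]
        · rw [Fin.snoc_castSucc, Fin.snoc_castSucc]
      rw [hfun]
      by_cases hT : LinearMap.range (dl φ) ≤ T
      · left
        refine hT.trans (Submodule.span_mono ?_)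
        rintro _ ⟨i, rfl⟩
        exact ⟨i.castSucc, by rw [Fin.snoc_castSucc]⟩
      · right
        rw [linearIndependent_finSnoc]
        refine ⟨hli.resolve_left hT, fun h => ?_⟩
        refine ha ((T.comap (dl φ)).comap (A N).subtype) ?_ h
        simp [F, hT]

end Vale.Agent.P271.H989
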