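import Vale.Agent.P271.H989.HomC

/-!
# P271 [NP3]: `Prim` with homogeneous `h`
-/

namespace Vale.Agent.P271.H989

open Vale.Agent.P282.L2 Vale.Agent.P271.H741

variable {d : ℕ} {K : Type} [Field K] [Algebra ℂ K] [Algebra (Pol d) K]
  [IsScalarTower ℂ (Pol d) K] [FaithfulSMul (Pol d) K]

section

variable [Algebra (FractionRing (Pol d)) K] [IsScalarTower (Pol d) (FractionRing (Pol d)) K]
  [FiniteDimensional (FractionRing (Pol d)) K]

/-- A given primitive element extends to a `Prim`. -/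
theorem exists_prim_of_gen {y : K} (hy : IsIntegral (Pol d) y)
    (hgen0 : ∀ a : K, ∃ p : Polynomial (FractionRing (Pol d)), Polynomial.aeval y p = a) :
    ∃ E : Prim d K, E.y = y := by
  classical
  have hsep := px_separable d K
  have hgen : ∀ a : K, ∃ (f : Polynomial (Pol d)) (c : Pol d), c ≠ 0 ∧
      algebraMap (Pol d) K c * a = Polynomial.aeval y f := fun a => by
    obtain ⟨p, hp⟩ := hgen0 a
    exact px_clear hp
  have hinj : Function.Injective (algebraMap (Pol d) K) := FaithfulSMul.algebraMap_injective _ _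
  -- the different
  obtain ⟨δ, hδ⟩ : ∃ δ, δ = Polynomial.aeval y (Polynomial.derivative (minpoly (Pol d) y)) :=
    ⟨_, rfl⟩
  have hmin : minpoly (FractionRing (Pol d)) y
      = (minpoly (Pol d) y).map (algebraMap (Pol d) (FractionRing (Pol d))) :=
    minpoly.isIntegrallyClosed_eq_field_fractions' (FractionRing (Pol d)) hy
  have hδ0 : δ ≠ 0 := by
    have h1 : (minpoly (FractionRing (Pol d)) y).Separable := Algebra.IsSeparable.isSeparable _ y
    have h2 := h1.aeval_derivative_ne_zero (minpoly.aeval (FractionRing (Pol d)) y)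
    rw [hmin, Polynomial.derivative_map, Polynomial.aeval_map_algebraMap] at h2
    rw [hδ]
    exact h2
  obtain ⟨f0, c0, hc0, hf0⟩ := hgen δ⁻¹
  choose fb cb hcb hfb using fun b : IB d K => hgen (b : K)
  have hfin : Module.Finite (Pol d) (IB d K) := ib_finite
  obtain ⟨s, hs⟩ := hfin.fg_top
  obtain ⟨h, hh⟩ : ∃ h : Pol d, h = c0 * (∏ b ∈ s, cb b) := ⟨_, rfl⟩
  have hh0 : h ≠ 0 := by
    rw [hh]
    exact mul_ne_zero hc0 (Finset.prod_ne_zero_iff.2 fun b _ => hcb b)
  have hmul : ∀ (c : Pol d) (x : K) (f : Polynomial (Pol d)),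
      algebraMap (Pol d) K c * x = Polynomial.aeval y f → c ∣ h →
      ∃ g : Polynomial (Pol d), algebraMap (Pol d) K h * x = Polynomial.aeval y g := by
    rintro c x f hf ⟨e, he⟩
    refine ⟨Polynomial.C e * f, ?_⟩
    rw [map_mul, Polynomial.aeval_C, ← hf, he, map_mul]
    ring
  have hd0 : c0 ∣ h := ⟨(∏ b ∈ s, cb b), by rw [hh]⟩
  have hdb : ∀ b ∈ s, cb b ∣ h := fun b hb => by
    rw [hh]
    exact Dvd.dvd.mul_left (Finset.dvd_prod_of_mem cb hb) c0
  refine ⟨⟨y, h, hy, hh0, hgen, ?_, ?_⟩, rfl⟩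
  · intro b hb
    obtain ⟨N, hN⟩ : ∃ N : Submodule (Pol d) (IB d K), ∀ x : IB d K, x ∈ N ↔
        ∃ g : Polynomial (Pol d), algebraMap (Pol d) K h * (x : K) = Polynomial.aeval y g := by
      refine ⟨{ carrier := {x | ∃ g : Polynomial (Pol d),
                  algebraMap (Pol d) K h * (x : K) = Polynomial.aeval y g}
                add_mem' := ?_
                zero_mem' := ?_
                smul_mem' := ?_ }, fun x => Iff.rfl⟩
      · rintro x x' ⟨g, hg⟩ ⟨g', hg'⟩
        refine ⟨g + g', ?_⟩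
        rw [map_add, ← hg, ← hg']
        push_cast
        ring
      · refine ⟨0, ?_⟩
        simp
      · rintro r x ⟨g, hg⟩
        refine ⟨Polynomial.C r * g, ?_⟩
        rw [map_mul, Polynomial.aeval_C, ← hg]
        have : ((r • x : IB d K) : K) = algebraMap (Pol d) K r * (x : K) := by
          rw [← Algebra.smul_def]
          rfl
        rw [this]
        ring
    have h1 : (⊤ : Submodule (Pol d) (IB d K)) ≤ N := by
      rw [← hs]
      refine Submodule.span_le.2 fun x hx => ?_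
      exact (hN x).2 (hmul _ _ _ (hfb x) (hdb x hx))
    exact (hN ⟨b, hb⟩).1 (h1 trivial)
  · obtain ⟨g, hg⟩ := hmul _ _ _ hf0 hd0
    refine ⟨g, ?_⟩
    rw [← hg, ← hδ]
    field_simp

end

/-! ### Stability under the torus -/

variable (G : Gr d K)

theorem isIntegral_τ (t : ℂˣ) {b : K} (hb : IsIntegral (Pol d) b) :
    IsIntegral (Pol d) (G.τ t b) := by
  obtain ⟨p, hp, hp0⟩ := hb
  refine ⟨p.map (sub (d := d) G.D t).toRingHom, hp.map _, ?_⟩
  rw [Polynomial.eval₂_map]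
  have h1 := congrArg (G.τ t) hp0
  rw [map_zero] at h1
  rw [← h1]
  have h2 := Polynomial.hom_eval₂ p (algebraMap (Pol d) K) (G.τ t).toRingHom b
  change G.τ t (Polynomial.eval₂ (algebraMap (Pol d) K) b p) = _ at h2
  rw [h2]
  congr 1
  exact RingHom.ext fun f => (G.τ_alg t f).symm

variable {G}

/-- The twist of the minimal polynomial of a homogeneous element. -/
theorem tw_minpoly {y : K} {δ : ℕ} (hy : G.Hom y δ) (hi : IsIntegral (Pol d) y) (t : ℂˣ) :
    tw G.D δ t (minpoly (Pol d) y) =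
      Polynomial.C (MvPolynomial.C (((t : ℂ) ^ δ) ^ (minpoly (Pol d) y).natDegree)) *
        minpoly (Pol d) y := by
  set P := minpoly (Pol d) y with hP
  have hmon : P.Monic := minpoly.monic hi
  have ha : ((t : ℂ) ^ δ) ≠ 0 := pow_ne_zero _ t.ne_zero
  have hC : (MvPolynomial.C ((t : ℂ) ^ δ) : Pol d) ≠ 0 := by
    rw [Ne, MvPolynomial.C_eq_zero]; exact ha
  have htw : tw G.D δ t P = (P.map (sub (d := d) G.D t).toRingHom).comp
      (Polynomial.C (MvPolynomial.C ((t : ℂ) ^ δ)) * Polynomial.X) := by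
    simp [tw]
  have hmon' : (P.map (sub (d := d) G.D t).toRingHom).Monic := hmon.map _
  have hdeg1 : (P.map (sub (d := d) G.D t).toRingHom).natDegree = P.natDegree :=
    hmon.natDegree_map _
  have hdeg : (tw G.D δ t P).natDegree = P.natDegree := by
    rw [htw, Polynomial.natDegree_comp, hdeg1, Polynomial.natDegree_C_mul_X _ hC, mul_one]
  have hlead : (tw G.D δ t P).leadingCoeff = MvPolynomial.C (((t : ℂ) ^ δ) ^ P.natDegree) := by
    rw [htw, Polynomial.leadingCoeff_comp (by rw [Polynomial.natDegree_C_mul_X _ hC]; exact one_ne_zero),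
      hmon'.leadingCoeff, one_mul, hdeg1, Polynomial.leadingCoeff_C_mul_X, ← map_pow]
  have h0 : Polynomial.aeval y (tw G.D δ t P) = 0 := by
    rw [← G.τ_aeval hy, hP, minpoly.aeval, map_zero]
  obtain ⟨Q, hQ⟩ := minpoly.isIntegrallyClosed_dvd hi h0
  rw [← hP] at hQ
  have hP0 : P ≠ 0 := hmon.ne_zero
  have htw0 : tw G.D δ t P ≠ 0 := by
    intro h
    rw [h, Polynomial.leadingCoeff_zero] at hlead
    have h2 : (MvPolynomial.C (((t : ℂ) ^ δ) ^ P.natDegree) : Pol d) ≠ 0 := by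
      rw [Ne, MvPolynomial.C_eq_zero]; exact pow_ne_zero _ ha
    exact h2 hlead.symm
  have hQ0 : Q ≠ 0 := by
    rintro rfl
    rw [mul_zero] at hQ
    exact htw0 hQ
  have hQdeg : Q.natDegree = 0 := by
    have h2 := Polynomial.natDegree_mul hP0 hQ0
    rw [← hQ, hdeg] at h2
    omega
  obtain ⟨c, rfl⟩ := Polynomial.natDegree_eq_zero.1 hQdeg
  have h3 := hlead
  rw [hQ, Polynomial.leadingCoeff_mul, hmon.leadingCoeff, one_mul, Polynomial.leadingCoeff_C] at h3
  rw [hQ, h3, mul_comm]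

/-- The different of a homogeneous element is homogeneous. -/
theorem hom_different {y : K} {δ : ℕ} (hy : G.Hom y δ) (hi : IsIntegral (Pol d) y) :
    G.Hom (Polynomial.aeval y (Polynomial.derivative (minpoly (Pol d) y)))
      (δ * ((minpoly (Pol d) y).natDegree - 1 : ℤ)) := by
  intro t
  set P := minpoly (Pol d) y with hP
  have ha : ((t : ℂ) ^ δ) ≠ 0 := pow_ne_zero _ t.ne_zero
  have htw : ∀ Q : Polynomial (Pol d), tw G.D δ t Q = (Q.map (sub (d := d) G.D t).toRingHom).comp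
      (Polynomial.C (MvPolynomial.C ((t : ℂ) ^ δ)) * Polynomial.X) := by
    intro Q
    simp [tw]
  have h1 : Polynomial.derivative (tw G.D δ t P) =
      Polynomial.C (MvPolynomial.C ((t : ℂ) ^ δ)) * tw G.D δ t (Polynomial.derivative P) := by
    rw [htw, htw, Polynomial.derivative_comp, Polynomial.derivative_map,
      Polynomial.derivative_C_mul_X]
  rw [tw_minpoly hy hi t, ← hP, Polynomial.derivative_C_mul] at h1
  have h2 := congrArg (Polynomial.aeval y) h1
  rw [map_mul, map_mul, Polynomial.aeval_C, Polynomial.aeval_C, ← G.τ_aeval hy] at h2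
  have h3 : ∀ c : ℂ, algebraMap (Pol d) K (MvPolynomial.C c) = algebraMap ℂ K c := fun c =>
    (IsScalarTower.algebraMap_apply ℂ (Pol d) K c).symm
  rw [h3, h3] at h2
  have hm : 0 < P.natDegree := minpoly.natDegree_pos hi
  have h4 : (algebraMap ℂ K ((t : ℂ) ^ δ)) ≠ 0 := by
    rw [Ne, FaithfulSMul.algebraMap_eq_zero_iff]; exact ha
  have h5 : ((t : ℂ) ^ δ) ^ P.natDegree =
      ((t : ℂ) ^ δ) * (t : ℂ) ^ ((δ : ℤ) * ((P.natDegree : ℤ) - 1)) := by
    rw [zpow_mul, zpow_natCast, ← zpow_natCast ((t : ℂ) ^ δ) P.natDegree]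
    conv_lhs => rw [show (P.natDegree : ℤ) = 1 + ((P.natDegree : ℤ) - 1) by ring]
    rw [zpow_add₀ ha, zpow_one]
  rw [h5, map_mul, mul_assoc] at h2
  exact (mul_left_cancel₀ h4 h2).symm

/-- `Prim` with a homogeneous `h` in a given stable ideal. -/
theorem exists_homPrim (hinv : ∀ (t : ℂˣ) (a : K), G.τ t (G.τ t⁻¹ a) = a) (hD : 0 < G.D)
    (E0 : Prim d K) {δ : ℕ} (hy : G.Hom E0.y δ) (J : Ideal (Pol d)) (hJ0 : J ≠ ⊥)
    (hJ : ∀ t : ℂˣ, ∀ f ∈ J, sub G.D t f ∈ J) :
    ∃ (E : Prim d K) (k : ℕ), E.y = E0.y ∧ E.h.IsHomogeneous k ∧ E.h ∈ J := by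
  classical
  set y := E0.y with hyd
  set δ' := Polynomial.aeval y (Polynomial.derivative (minpoly (Pol d) y)) with hδ'
  have hhd := hom_different hy E0.integral
  -- the ideal of possible `h`
  let I : Submodule ℂ (Pol d) :=
    { carrier := {h | h ∈ J ∧ (∀ b : K, IsIntegral (Pol d) b →
        ∃ f : Polynomial (Pol d), algebraMap (Pol d) K h * b = Polynomial.aeval y f) ∧
        ∃ f : Polynomial (Pol d), Polynomial.aeval y f * δ' = algebraMap (Pol d) K h}
      add_mem' := by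
        rintro a b ⟨ha1, ha2, fa, ha3⟩ ⟨hb1, hb2, fb, hb3⟩
        refine ⟨add_mem ha1 hb1, fun c hc => ?_, fa + fb, ?_⟩
        · obtain ⟨f, hf⟩ := ha2 c hc
          obtain ⟨f', hf'⟩ := hb2 c hc
          exact ⟨f + f', by rw [map_add, map_add, add_mul, hf, hf']⟩
        · rw [map_add, map_add, add_mul, ha3, hb3]
      zero_mem' := ⟨zero_mem _, fun c _ => ⟨0, by simp⟩, 0, by simp⟩
      smul_mem' := by
        rintro t a ⟨ha1, ha2, fa, ha3⟩
        rw [MvPolynomial.smul_eq_C_mul]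
        refine ⟨Ideal.mul_mem_left _ _ ha1, fun c hc => ?_, Polynomial.C (MvPolynomial.C t) * fa, ?_⟩
        · obtain ⟨f, hf⟩ := ha2 c hc
          exact ⟨Polynomial.C (MvPolynomial.C t) * f, by
            rw [map_mul, map_mul, Polynomial.aeval_C, mul_assoc, hf]⟩
        · rw [map_mul, map_mul, Polynomial.aeval_C, mul_assoc, ha3] }
  have hI : ∀ t : ℂˣ, ∀ f ∈ I, sub G.D t f ∈ I := by
    rintro t h ⟨h1, h2, f, h3⟩
    refine ⟨hJ t h h1, fun b hb => ?_, ?_⟩
    · obtain ⟨g, hg⟩ := h2 _ (isIntegral_τ G t⁻¹ hb)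
      refine ⟨tw G.D δ t g, ?_⟩
      rw [← G.τ_aeval hy, ← hg, map_mul, hinv, G.τ_alg]
    · refine ⟨Polynomial.C (MvPolynomial.C ((t : ℂ) ^ ((δ : ℤ) * (((minpoly (Pol d) y).natDegree : ℤ) - 1)))) *
        tw G.D δ t f, ?_⟩
      rw [← G.τ_alg, ← h3, map_mul, map_mul, Polynomial.aeval_C, ← G.τ_aeval hy, hhd t, ← hδ']
      have h4 : ∀ c : ℂ, algebraMap (Pol d) K (MvPolynomial.C c) = algebraMap ℂ K c := fun c =>
        (IsScalarTower.algebraMap_apply ℂ (Pol d) K c).symm
      rw [h4]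
      ring
  obtain ⟨j, hjJ, hj0⟩ := Submodule.exists_mem_ne_zero_of_ne_bot hJ0
  have hmem : j * E0.h ∈ I := by
    obtain ⟨f, hf⟩ := E0.unram
    refine ⟨Ideal.mul_mem_right _ _ hjJ, fun b hb => ?_, Polynomial.C j * f, ?_⟩
    · obtain ⟨g, hg⟩ := E0.denom b hb
      exact ⟨Polynomial.C j * g, by rw [map_mul, map_mul, Polynomial.aeval_C, mul_assoc, hg]⟩
    · rw [map_mul, map_mul, Polynomial.aeval_C, mul_assoc, hδ', hyd, hf]
  obtain ⟨k, h, hhom, hhI, hh0⟩ := exists_homogeneous_mem hD I hI hmem (mul_ne_zero hj0 E0.h0)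
  obtain ⟨h1, h2, h3⟩ := hhI
  exact ⟨⟨y, h, E0.integral, hh0, E0.gen, h2, h3⟩, k, rfl, hhom, h1⟩

end Vale.Agent.P271.H989
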