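import Vale.Agent.P271.H741.Chart
import Vale.Agent.P271.H989.Choice

/-!
# P271: uniformity over the points of the cone
-/

namespace Vale.Agent.P271.H989

open Vale.Agent.P271.H741 Vale.Agent.P271.Sch

/-- A bound which is valid on a Zariski neighbourhood of each point is uniform. -/
theorem uniform {n : ℕ} (C : GCone n) (P : C.Pt → ℕ → Prop)
    (hP : ∀ φ : C.Pt, GCone.NV φ → ∃ d : C.R, φ d ≠ 0 ∧ ∃ M : ℕ, ∀ φ' : C.Pt, GCone.NV φ' →
      φ' d ≠ 0 → ∀ M' ≥ M, P φ' M') :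
    ∃ M : ℕ, ∀ φ : C.Pt, GCone.NV φ → ∀ M' ≥ M, P φ M' := by
  classical
  have hnoeth : IsNoetherianRing C.R := by
    have := C.finiteType
    exact Algebra.FiniteType.isNoetherianRing ℂ C.R
  by_cases hne : Nonempty C.Pt
  swap
  · exact ⟨0, fun φ => absurd ⟨φ⟩ hne⟩
  choose! d hd M hM using hP
  obtain ⟨s, hs, hspan⟩ := (Submodule.fg_span_iff_fg_span_finset_subset
    (R := C.R) (d '' {φ : C.Pt | GCone.NV φ})).1 (IsNoetherian.noetherian _)
  have hch : ∀ x ∈ s, ∃ φ : C.Pt, GCone.NV φ ∧ d φ = x := by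
    intro x hx
    obtain ⟨φ, hφ, h⟩ := hs hx
    exact ⟨φ, hφ, h⟩
  choose! ψ hψ hψd using hch
  refine ⟨s.sup fun x => M (ψ x), fun φ hφ M' hM' => ?_⟩
  obtain ⟨x, hx, hxφ⟩ : ∃ x ∈ s, φ x ≠ 0 := by
    by_contra hcon
    push Not at hcon
    have h1 : Ideal.span (s : Set C.R) ≤ RingHom.ker φ := by
      rw [Ideal.span_le]
      exact fun x hx => hcon x hx
    have h2 : d φ ∈ Ideal.span (s : Set C.R) := by
      have h3 : d φ ∈ Submodule.span C.R (d '' {φ : C.Pt | GCone.NV φ}) :=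
        Submodule.subset_span ⟨φ, hφ, rfl⟩
      rw [hspan] at h3
      exact h3
    exact hd φ hφ (h1 h2)
  refine hM (ψ x) (hψ x hx) φ hφ (by rw [hψd x hx]; exact hxφ) M' (le_trans ?_ hM')
  exact Finset.le_sup (f := fun x => M (ψ x)) hx

/-- Homogeneous elements of every large degree which do not vanish on a Zariski neighbourhood. -/
theorem exists_shift {n : ℕ} (C : GCone n) (φ : C.Pt) (hφ : GCone.NV φ) :
    ∃ d : C.R, φ d ≠ 0 ∧ ∃ M : ℕ, ∀ M' ≥ M, ∃ u ∈ C.A M', ∀ φ' : C.Pt, φ' d ≠ 0 → φ' u ≠ 0 := by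
  have hmax : (RingHom.ker φ).IsMaximal := by
    refine RingHom.ker_isMaximal_of_surjective φ ?_
    intro c
    exact ⟨algebraMap ℂ C.R c, by simp⟩
  have hnv : ∃ k > 0, ∃ s ∈ C.A k, s ∉ RingHom.ker φ := hφ
  obtain ⟨k, s, hs, s', hs', hs0, hs0'⟩ := C.free (RingHom.ker φ) hnv
  refine ⟨s * s', ?_, k * k, fun M' hM' => ?_⟩
  · rw [map_mul]
    exact mul_ne_zero hs0 hs0'
  obtain ⟨a, b, hab⟩ := exists_rep k M' hM'
  refine ⟨s ^ a * s' ^ b, ?_, fun φ' hφ' => ?_⟩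
  · have h1 := SetLike.pow_mem_graded (A := C.A) a hs
    have h2 := SetLike.pow_mem_graded (A := C.A) b hs'
    have := SetLike.mul_mem_graded h1 h2
    simp only [smul_eq_mul, hab] at this
    exact this
  · rw [map_mul] at hφ'
    rw [map_mul, map_pow, map_pow]
    exact mul_ne_zero (pow_ne_zero _ (left_ne_zero_of_mul hφ')) (pow_ne_zero _ (right_ne_zero_of_mul hφ'))

end Vale.Agent.P271.H989
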